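import Crest.Agent.N346.Br.Defs
import Crest.Agent.N346.An.UB

/-!
Row 346, bridge (helper16): uniform bounds for the state functions of `Br/Defs`.
-/

set_option autoImplicit false

open MeasureTheory Filter Topology
open scoped ContDiff
open Crest.GeometryTopology.CoordMetric Crest.MathPhysics.ExteriorData
open Crest.Agent.N346.An Crest.Agent.N346.Bs
open Crest.Agent.R238 (Ell)

noncomputable section

namespace Crest.Agent.N346.Br

variable {n : ℕ} {ι : Type}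

/-- size function on `Z n` -/
abbrev NZ (q : Z n) : ℝ := ‖q.2‖

/-- `prj` as a continuous linear map -/
def prjL (n : ℕ) : Y0 n →L[ℝ] Z n :=
  (ContinuousLinearMap.fst ℝ _ _).prod
    ((((ContinuousLinearMap.fst ℝ _ _).prod
      ((ContinuousLinearMap.fst ℝ _ _).comp (ContinuousLinearMap.snd ℝ _ _)))).comp
      (ContinuousLinearMap.snd ℝ (E n) (S0 n)))


theorem NZ_prj_le (y : Y0 n) : NZ (prj y) ≤ N0 y :=
  norm_prod_le_iff.2 ⟨norm_fst_le y.2, (norm_fst_le y.2.2).trans (norm_snd_le y.2)⟩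

section calc0
variable {Θ : ι → Z n → ℝ}

theorem ub_prj (h : UB NZ Θ) : UB N0 fun a (y : Y0 n) => Θ a (prj y) :=
  h.comp (UB1.clm (prjL n)) fun M => ⟨M, fun _ y hy => (NZ_prj_le y).trans hy⟩

theorem ub_dX (h : UB NZ Θ) (j : Fin n) : UB NZ fun a => dX j (Θ a) := h.fd_apply _
theorem ub_dF (h : UB NZ Θ) : UB NZ fun a => dF (Θ a) := h.fd_apply _
theorem ub_dZ (h : UB NZ Θ) : UB NZ fun a => dZ (Θ a) := h.fd_apply _

theorem ub_tot0 (h : UB NZ Θ) (j : Fin n) : UB N0 fun a y => tot0 (Θ a) y j :=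
  (ub_prj (ub_dX h j)).add ((ub_prj (ub_dF h)).mul (ub_p j))

theorem pol_tot (h : UB NZ Θ) (j : Fin n) : Pol 1 fun a Y => tot (Θ a) Y j :=
  (Pol.coef' (ub_tot0 h j) 1).add ((Pol.var1 j).cmul (ub_prj (ub_dZ h)))

theorem ub_ph (h : UB NZ Θ) : UB N0 fun a => ph (Θ a) := ub_prj h
theorem ub_phz (h : UB NZ Θ) : UB N0 fun a => phz (Θ a) := ub_prj (ub_dZ h)

theorem pol_rest (h : UB NZ Θ) (i j : Fin n) : Pol 2 fun a Y => rest (Θ a) Y i j :=
  ((((pol_tot (ub_dX h j) i).le one_le_two).add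
    (((pol_tot (ub_dF h) i).mul (Pol.coef (ub_p j))).le one_le_two)).add
    (((Pol.var2 i j).cmul (ub_prj (ub_dF h))).le one_le_two)).add
    ((pol_tot (ub_dZ h) i).mul11 (Pol.var1 j))

end calc0

/-! ### matrices -/

theorem qb_le_of_entry {A : Matrix (Fin n) (Fin n) ℝ} {C : ℝ} (h : ∀ i j, |A i j| ≤ C)
    (v : Fin n → ℝ) : qb A v v ≤ n * C * ∑ i, v i * v i := by
  have h1 : qb A v v ≤ ∑ i, ∑ j, C * ((v i * v i + v j * v j) / 2) := by
    refine Finset.sum_le_sum fun i _ => Finset.sum_le_sum fun j _ => ?_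
    have h2 : |v i * v j| ≤ (v i * v i + v j * v j) / 2 := by
      rw [abs_le]; constructor <;> nlinarith [sq_nonneg (v i + v j), sq_nonneg (v i - v j)]
    calc A i j * v i * v j ≤ |A i j * (v i * v j)| := by rw [mul_assoc]; exact le_abs_self _
      _ ≤ _ := by
        rw [abs_mul]
        exact mul_le_mul (h i j) h2 (abs_nonneg _) ((abs_nonneg _).trans (h i j))
  refine h1.trans (le_of_eq ?_)
  simp only [← Finset.mul_sum, ← Finset.sum_div, Finset.sum_add_distrib, Finset.sum_const,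
    Finset.card_univ, Fintype.card_fin, nsmul_eq_mul]
  have e : ∑ x, v x * (n * v x) = n * ∑ x, v x * v x := by
    rw [Finset.mul_sum]; exact Finset.sum_congr rfl fun i _ => by ring
  rw [e]
  ring

/-- uniform bound of the entries -/
theorem ub_entry_bdd {Y : Type} [NormedAddCommGroup Y] [NormedSpace ℝ Y] {N : Y → ℝ}
    {A : ι → Y → Matrix (Fin n) (Fin n) ℝ} (h : ∀ k l, UB N fun a y => A a y k l) (M : ℝ) :
    ∃ C, 0 ≤ C ∧ ∀ a y, N y ≤ M → ∀ k l, |A a y k l| ≤ C := by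
  obtain ⟨C, hC0, hC⟩ := (UB.pi (w := fun a y k l => A a y k l) fun k =>
    UB.pi (w := fun a y l => A a y k l) fun l => h k l).bdd M
  exact ⟨C, hC0, fun a y hy k l =>
    ((norm_le_pi_norm (fun l => A a y k l) l).trans
      (norm_le_pi_norm (fun k l => A a y k l) k)).trans (hC a y hy)⟩

/-- uniform upper bound of the quadratic form -/
theorem ub_qb_le {Y : Type} [NormedAddCommGroup Y] [NormedSpace ℝ Y] {N : Y → ℝ}
    {A : ι → Y → Matrix (Fin n) (Fin n) ℝ} (h : ∀ k l, UB N fun a y => A a y k l) (M : ℝ) :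
    ∃ C, 0 < C ∧ ∀ a y, N y ≤ M → ∀ v, qb (A a y) v v ≤ C * ∑ i, v i * v i := by
  obtain ⟨C, hC0, hC⟩ := ub_entry_bdd h M
  refine ⟨n * C + 1, by positivity, fun a y hy v => (qb_le_of_entry (hC a y hy) v).trans ?_⟩
  exact mul_le_mul_of_nonneg_right (by linarith) (Finset.sum_nonneg fun i _ => mul_self_nonneg _)

theorem ell_of_qb {lo hi : ℝ} {A : Matrix (Fin n) (Fin n) ℝ} (hs : ∀ i j, A i j = A j i)
    (h1 : ∀ v, lo * ∑ i, v i * v i ≤ qb A v v) (h2 : ∀ v, qb A v v ≤ hi * ∑ i, v i * v i) :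
    Ell lo hi A :=
  ⟨hs, fun z => by simpa only [sq] using ⟨h1 z, h2 z⟩⟩

/-! ### pointwise facts -/

section point
variable {g : MetricField n} {Φ : Z n → ℝ} (hg : IsRiemannianOn g Set.univ) (y : Y0 n)

theorem qb_gb0 (g : MetricField n) (Φ : Z n → ℝ) (y : Y0 n) (v w : Fin n → ℝ) :
    qb (gb0 g Φ y) v w = qb (g y.1) v w
      + ph Φ y ^ 2 * ((∑ i, y.2.2.2 i * v i) * ∑ i, y.2.2.2 i * w i) := by
  rw [Finset.sum_mul_sum]
  simp only [qb, gb0, Matrix.add_apply, Matrix.of_apply, add_mul, Finset.sum_add_distrib,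
    Finset.mul_sum]
  congr 1
  exact Finset.sum_congr rfl fun i _ => Finset.sum_congr rfl fun j _ => by ring

theorem qb_le_gb0 (g : MetricField n) (Φ : Z n → ℝ) (y : Y0 n) (v : Fin n → ℝ) :
    qb (g y.1) v v ≤ qb (gb0 g Φ y) v v := by
  rw [qb_gb0]
  exact le_add_of_nonneg_right (mul_nonneg (sq_nonneg _) (mul_self_nonneg _))

theorem sq0_eq (g : MetricField n) (Φ : Z n → ℝ) (y : Y0 n) :
    sq0 g Φ y = ph Φ y ^ 2 * qb (g y.1)⁻¹ y.2.2.2 y.2.2.2 := rfl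

theorem sum_w0 (g : MetricField n) (Φ : Z n → ℝ) (y : Y0 n) (v : Fin n → ℝ) :
    ∑ i, w0 g Φ y i * v i = ph Φ y / gm0 g Φ y * qb (g y.1)⁻¹ v y.2.2.2 := by
  simp only [w0, qb, inverseField, Finset.mul_sum, Finset.sum_mul]
  exact Finset.sum_congr rfl fun i _ => Finset.sum_congr rfl fun j _ => by ring

theorem qb_Pi0 (g : MetricField n) (Φ : Z n → ℝ) (y : Y0 n) (v w : Fin n → ℝ) :
    qb (Matrix.of (Pi0 g Φ y)) v w = pp0 g Φ y * qb (g y.1)⁻¹ v w
      - (∑ i, w0 g Φ y i * v i) * ∑ i, w0 g Φ y i * w i := by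
  rw [Finset.sum_mul_sum]
  simp only [qb, Pi0, inverseField, Matrix.of_apply, sub_mul, Finset.sum_sub_distrib,
    Finset.mul_sum]
  congr 1 <;> exact Finset.sum_congr rfl fun i _ => Finset.sum_congr rfl fun j _ => by ring

include hg

theorem gb0_symm (i j : Fin n) : gb0 g Φ y i j = gb0 g Φ y j i := by
  simp only [gb0, Matrix.add_apply, Matrix.of_apply, riem_symm hg y.1 i j]
  ring

theorem gb0_posDef : (gb0 g Φ y).PosDef :=
  posDef_of_qb (gb0_symm hg y) fun v hv =>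
    (qb_pos (riem_posDef hg y.1) hv).trans_le (qb_le_gb0 g Φ y v)

theorem gbi_posDef : (gbi g Φ y).PosDef := (gb0_posDef hg y).inv

theorem gbi_symm (i j : Fin n) : gbi g Φ y i j = gbi g Φ y j i := posDef_symm (gbi_posDef hg y) i j

theorem det_le_gb0 : (g y.1).det ≤ (gb0 g Φ y).det := by
  simpa using (mono_of_le (riem_posDef hg y.1) (gb0_posDef (Φ := Φ) hg y) zero_le_one
    fun v => by rw [one_mul]; exact qb_le_gb0 g Φ y v).1

theorem sq0_nonneg : 0 ≤ sq0 g Φ y :=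
  mul_nonneg (sq_nonneg _) (qb_nonneg (riem_posDef hg y.1).inv _)

theorem one_le_gm0 : 1 ≤ gm0 g Φ y :=
  Real.one_le_sqrt.2 (le_add_of_nonneg_right (sq0_nonneg hg y))


theorem gm0_sq : gm0 g Φ y ^ 2 = 1 + sq0 g Φ y :=
  Real.sq_sqrt (by linarith [sq0_nonneg (Φ := Φ) hg y])



theorem Pi0_symm (i j : Fin n) : Pi0 g Φ y i j = Pi0 g Φ y j i := by
  simp only [Pi0, riem_inv_symm hg y.1 i j]
  ring

/-- `(w · v)² ≤ p |v|²_{g⁻¹}` -/
theorem w0_sq_le (v : Fin n → ℝ) :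
    (∑ i, w0 g Φ y i * v i) ^ 2 ≤ pp0 g Φ y * qb (g y.1)⁻¹ v v := by
  have h := qb_sq_le (riem_posDef hg y.1).inv v y.2.2.2
  rw [sum_w0, mul_pow, div_pow, gm0_sq hg, pp0]
  have h0 : 0 ≤ ph Φ y ^ 2 / (1 + sq0 g Φ y) :=
    div_nonneg (sq_nonneg _) (by linarith [sq0_nonneg (Φ := Φ) hg y])
  refine (mul_le_mul_of_nonneg_left h h0).trans (le_of_eq ?_)
  conv_rhs => rw [sq0_eq, mul_div_right_comm, ← sq0_eq]
  ring

/-- `Π` is positive semidefinite -/
theorem qb_Pi0_nonneg (v : Fin n → ℝ) : 0 ≤ qb (Matrix.of (Pi0 g Φ y)) v v := by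
  rw [qb_Pi0, ← sq]
  linarith [w0_sq_le (Φ := Φ) hg y v]


end point

/-! ### families of metrics -/

/-- uniformly controlled metrics -/
structure GU (g : ι → MetricField n) : Prop where
  riem : ∀ a, IsRiemannianOn (g a) Set.univ
  uc : ∀ i j, UC fun a x => g a x i j
  lo : ∃ lam > (0 : ℝ), ∀ a x v, lam * ‖v‖ ^ 2 ≤ quadForm (g a) x v

namespace GU
variable {g : ι → MetricField n} (h : GU g)
include h

theorem lo' : ∃ lam > (0 : ℝ), ∀ a x (v : Fin n → ℝ), lam * ∑ i, v i * v i ≤ qb (g a x) v v := by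
  obtain ⟨lam, h0, h1⟩ := h.lo
  exact ⟨lam, h0, fun a x v => by simpa [norm_sq_eq, quadForm_eq] using h1 a x (WithLp.toLp 2 v)⟩

theorem det_lo : ∃ c > (0 : ℝ), ∀ a x, c ≤ (g a x).det := by
  obtain ⟨lam, h0, h1⟩ := h.lo'
  exact ⟨lam ^ n, by positivity, fun a x => det_lower (riem_posDef (h.riem a) x) h0.le (h1 a x)⟩

theorem upos_det : UPos (fun _ => (0 : ℝ)) fun a x => (g a x).det := by
  obtain ⟨c, h0, h1⟩ := h.det_lo
  exact UPos.of_le h0 h1

theorem uc_det : UC fun a x => (g a x).det := UB.det h.uc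

theorem uc_vol : UC fun a => volDensity (g a) := h.uc_det.sqrt h.upos_det

theorem uc_inv (i j : Fin n) : UC fun a x => inverseField (g a) x i j := UB.matInv h.uc h.upos_det i j

theorem uc_chr (k i j : Fin n) : UC fun a x => christoffel (g a) x k i j :=
  (UB.sum _ fun l _ => (h.uc_inv k l).mul
    ((((h.uc j l).pd i).add ((h.uc i l).pd j)).sub ((h.uc i j).pd l))).const_mul _

theorem uc_ric (i j : Fin n) : UC fun a x => ricci (g a) x i j :=
  (((UB.sum _ fun k _ => (h.uc_chr k i j).pd k).sub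
    ((UB.sum _ fun k _ => h.uc_chr k k i).pd j)).add
    (UB.sum _ fun k _ => UB.sum _ fun l _ => (h.uc_chr k k l).mul (h.uc_chr l i j))).sub
    (UB.sum _ fun k _ => UB.sum _ fun l _ => (h.uc_chr k j l).mul (h.uc_chr l k i))

theorem uc_scal : UC fun a => scalarCurv (g a) :=
  UB.sum _ fun i _ => UB.sum _ fun j _ => (h.uc_inv i j).mul (h.uc_ric i j)

theorem uc_traceK {K : ι → MetricField n} (hK : ∀ i j, UC fun a x => K a x i j) :
    UC fun a => traceK (g a) (K a) :=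
  UB.sum _ fun i _ => UB.sum _ fun j _ => (h.uc_inv i j).mul (hK i j)

theorem ub_Gp (i j : Fin n) : UB N0 fun a y => Gp (g a) y i j :=
  UB.sum _ fun k _ => (h.uc_chr k i j).lift.mul (ub_p k)

/-- two-sided bounds of `g⁻¹` -/
theorem inv_bounds : ∃ lo hi : ℝ, 0 < lo ∧ lo ≤ hi ∧ ∀ a x, Ell lo hi (inverseField (g a) x) := by
  obtain ⟨lam, h0, h1⟩ := h.lo'
  obtain ⟨C, hC0, hC⟩ := ub_qb_le h.uc 0
  refine ⟨min C⁻¹ lam⁻¹, lam⁻¹, by positivity, min_le_right _ _, fun a x =>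
    ell_of_qb (riem_inv_symm (h.riem a) x) (fun v => ?_)
      (inv_upper (riem_posDef (h.riem a) x) h0 (h1 a x))⟩
  exact (mul_le_mul_of_nonneg_right (min_le_left _ _)
    (Finset.sum_nonneg fun i _ => mul_self_nonneg _)).trans
    (inv_lower (riem_posDef (h.riem a) x) hC0 (hC a x le_rfl) v)

end GU

/-- uniformly controlled metrics and warping factors -/
structure GF (g : ι → MetricField n) (Φ : ι → Z n → ℝ) : Prop extends GU g where
  Φ_ub : UB NZ Φ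
  Φ_lo : ∃ d > (0 : ℝ), ∀ a q, d ≤ Φ a q

theorem Fam.gf {b : ι → Bg n} (h : Fam b) : GF (fun a => (b a).g) fun a => (b a).Φ :=
  ⟨⟨fun a => (h.reg a).riem, h.g_uc, h.g_lo⟩, h.Φ_ub, h.Φ_lo⟩

namespace GF
variable {g : ι → MetricField n} {Φ : ι → Z n → ℝ} (h : GF g Φ)
include h

theorem ph : UB N0 fun a => ph (Φ a) := ub_ph h.Φ_ub
theorem phz : UB N0 fun a => phz (Φ a) := ub_phz h.Φ_ub

theorem upos_ph : UPos N0 fun a => Br.ph (Φ a) := by
  obtain ⟨d, h0, h1⟩ := h.Φ_lo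
  exact UPos.of_le h0 fun a y => h1 a _

theorem ph_inv : UB N0 fun a y => (Br.ph (Φ a) y)⁻¹ := h.ph.inv h.upos_ph

theorem sq0 : UB N0 fun a => sq0 (g a) (Φ a) :=
  (h.ph.pow 2).mul (UB.sum _ fun i _ => UB.sum _ fun j _ =>
    ((h.uc_inv i j).lift.mul (ub_p i)).mul (ub_p j))

theorem upos_sq : UPos N0 fun a y => 1 + Br.sq0 (g a) (Φ a) y :=
  UPos.of_le one_pos fun a y => le_add_of_nonneg_right (sq0_nonneg (h.riem a) y)

theorem gm0 : UB N0 fun a => gm0 (g a) (Φ a) := ((UB.const' 1).add h.sq0).sqrt h.upos_sq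

theorem upos_gm : UPos N0 fun a => Br.gm0 (g a) (Φ a) :=
  UPos.of_le one_pos fun a y => one_le_gm0 (h.riem a) y

theorem gm_inv : UB N0 fun a y => (Br.gm0 (g a) (Φ a) y)⁻¹ := h.gm0.inv h.upos_gm

theorem pp0 : UB N0 fun a => pp0 (g a) (Φ a) := h.sq0.div ((UB.const' 1).add h.sq0) h.upos_sq

theorem w0 (i : Fin n) : UB N0 fun a y => w0 (g a) (Φ a) y i :=
  (h.ph.div h.gm0 h.upos_gm).mul (UB.sum _ fun j _ => (h.uc_inv i j).lift.mul (ub_p j))

theorem gb0 (i j : Fin n) : UB N0 fun a y => gb0 (g a) (Φ a) y i j :=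
  (h.uc i j).lift.add (((h.ph.pow 2).mul (ub_p i)).mul (ub_p j))

theorem det_gb : UB N0 fun a y => (Br.gb0 (g a) (Φ a) y).det := UB.det h.gb0

theorem upos_det_gb : UPos N0 fun a y => (Br.gb0 (g a) (Φ a) y).det := by
  obtain ⟨c, h0, h1⟩ := h.det_lo
  exact UPos.of_le h0 fun a y => (h1 a y.1).trans (det_le_gb0 (h.riem a) y)

theorem sqrt_det_gb : UB N0 fun a y => √(Br.gb0 (g a) (Φ a) y).det := h.det_gb.sqrt h.upos_det_gb

theorem upos_sqrt_det_gb : UPos N0 fun a y => √(Br.gb0 (g a) (Φ a) y).det := by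
  obtain ⟨c, h0, h1⟩ := h.det_lo
  exact UPos.of_le (Real.sqrt_pos.2 h0) fun a y =>
    Real.sqrt_le_sqrt ((h1 a y.1).trans (det_le_gb0 (h.riem a) y))

theorem gbi (i j : Fin n) : UB N0 fun a y => gbi (g a) (Φ a) y i j :=
  UB.matInv h.gb0 h.upos_det_gb i j

theorem Pi0 (i j : Fin n) : UB N0 fun a y => Pi0 (g a) (Φ a) y i j :=
  (h.pp0.mul (h.uc_inv i j).lift).sub ((h.w0 i).mul (h.w0 j))

theorem eSq0 {EE : ι → VectorField n} (hE : ∀ i, UC fun a x => EE a x i) :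
    UB N0 fun a => eSq0 (g a) (Φ a) (EE a) :=
  (UB.sum _ fun i _ => UB.sum _ fun j _ => ((h.gb0 i j).mul (hE i).lift).mul (hE j).lift).div
    h.det_gb h.upos_det_gb

theorem hh1 (i j : Fin n) : Pol 1 fun a Y => hh1 (g a) (Φ a) Y i j :=
  ((((((Pol.var2 i j).sub (Pol.coef' (h.ub_Gp i j) 1)).cmul h.ph).add
    ((pol_tot h.Φ_ub i).mul (Pol.coef (ub_p j)))).add
    ((pol_tot h.Φ_ub j).mul (Pol.coef (ub_p i)))).cmul h.gm_inv).congr fun _ _ =>
    div_eq_inv_mul _ _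

theorem aa1 : Pol 1 fun a Y => aa1 (g a) (Φ a) Y :=
  ((Pol.sum _ fun j _ => (pol_tot h.Φ_ub j).cmul (h.w0 j)).cmul h.ph_inv).congr fun _ _ =>
    div_eq_inv_mul _ _

theorem H01 : Pol 1 fun a Y => H01 (g a) (Φ a) Y :=
  Pol.sum _ fun i _ => Pol.sum _ fun j _ => (h.hh1 i j).cmul (h.gbi i j)

theorem hx1 (i j : Fin n) : Pol 1 fun a Y => hx1 (g a) (Φ a) Y i j :=
  (h.hh1 i j).add (h.aa1.mul (Pol.coef (((h.ph.pow 2).mul (ub_p i)).mul (ub_p j))))


/-- two-sided bounds of `ḡ⁻¹` -/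
theorem gbi_bounds (M : ℝ) : ∃ lo hi : ℝ, 0 < lo ∧ lo ≤ hi ∧
    ∀ a y, N0 y ≤ M → Ell lo hi (Br.gbi (g a) (Φ a) y) := by
  obtain ⟨lam, h0, h1⟩ := h.lo'
  obtain ⟨C, hC0, hC⟩ := ub_qb_le h.gb0 M
  refine ⟨min C⁻¹ lam⁻¹, lam⁻¹, by positivity, min_le_right _ _, fun a y hy =>
    ell_of_qb (gbi_symm (h.riem a) y) (fun v => ?_)
      (inv_upper (gb0_posDef (h.riem a) y) h0 fun v => (h1 a y.1 v).trans (qb_le_gb0 _ _ y v))⟩
  exact (mul_le_mul_of_nonneg_right (min_le_left _ _)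
    (Finset.sum_nonneg fun i _ => mul_self_nonneg _)).trans
    (inv_lower (gb0_posDef (h.riem a) y) hC0 (hC a y hy) v)

end GF

end Crest.Agent.N346.Br

end
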