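import Crest.Agent.N346.P0.Asm
import Crest.Agent.N346.P0.GB
import Crest.Agent.N346.P0.Pert_Mg
import Crest.Agent.N346.P0.Fac_Mg
import Crest.Agent.N346.P0.STI
import Crest.Agent.N346.P0.Pull_Mg
import Crest.Agent.N346.P0.Strict
import Crest.Agent.N346.P1.Defs
import Crest.Agent.N346.Assembly
import Crest.Agent.N346.An.Defs
import Crest.Agent.N346.Basic
import Crest.Agent.R236.Poinc
import Crest.Agent.NLib.Ell.Mat
import Crest.Agent.R273.SchD_152
import Crest.Agent.N346.An.UH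
import Crest.Agent.N346.Mat
import Crest.Agent.N346.Id.Jang3
import Crest.Agent.N346.Id.Flat
import Crest.Agent.N346.Br.Defs
import Crest.Agent.N346.Br.Adm
import Crest.Agent.N346.P1.Unif
import Crest.Agent.N346.An.Per
import Crest.Agent.N346.An.Lin
import Crest.Agent.N346.An.UB
import Crest.Agent.N346.Br.UBL

-- ▼ part N346/P0/Final
section

/-! Row 346, Part 0 (helper11): all leaves plugged in. -/

set_option autoImplicit false

namespace Crest.Agent.N346.P0

/-- Part 0: from normalised data to good data. -/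
theorem p0 : P0Stmt :=
  p0_of boost (strict conf (fac jlap (vv hom)) flbd avg) (ga (newt hom) (vv hom) flbd)
    (GB.gb jl (sti st) (sj jl st (sti st)) pert) (bend (sti st) pert) pull

end Crest.Agent.N346.P0
end

-- ▼ part N346/P1/Main
section

/-! Row 346, Part 1: assembly of `P1Stmt` from the sub-parts. -/

set_option autoImplicit false

open MeasureTheory Filter Topology
open scoped ContDiff
open Crest.GeometryTopology.CoordMetric Crest.MathPhysics.ExteriorData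

noncomputable section

namespace Crest.Agent.N346.P1

theorem p1_of (hS : SetupStmt) (hU : UnifStmt) (hEx : ExStmt) (hEst : EstStmt) (hLim : LimStmt)
    (hEn : EnStmt) (hOut : OutStmt) : P1Stmt := by
  intro n hn m A Q g K EE ψ s R0 C c0 e0 θ0 r1 hG hA η hη
  obtain ⟨S, hOK, hm, hA', hQ, hE, hθ⟩ := hS n hn m A Q g K EE ψ s R0 C c0 e0 θ0 r1 hG
    (min (η / 2) 1) (lt_min (by linarith) one_pos) (min_le_right _ _)
  obtain ⟨lam, B, hUn⟩ := hU n hn S hOK
  obtain ⟨N1, e1, he1, hex⟩ := hEx n hn S.θ S.t0 S.t1 lam B hOK.par_ok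
  obtain ⟨N, e2, he2, hest⟩ := hEst n hn S hOK
  have hε : 0 < ((n : ℝ) - 2) * unitSphereArea n * η / 2 := by
    have h3 : (3 : ℝ) ≤ n := by exact_mod_cast hn
    have := unitSphereArea_pos (n := n) (by omega)
    have h4 : 0 < (n : ℝ) - 2 := by linarith
    positivity
  obtain ⟨e3, he3, hen⟩ := hEn n hn S hOK _ hε N
  have hθη : 2 * S.θ ≤ η := by rw [hθ]; have := min_le_left (η / 2) 1; linarith
  obtain ⟨N', hout⟩ := hOut n hn S hOK (hA' ▸ hA) η hη hθη N
  refine ⟨N', fun ℓ0 => ?_⟩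
  obtain ⟨e4, he4, hout'⟩ := hout ℓ0
  set e : ℝ := min (min (min e1 e2) (min e3 e4)) (1 / 2) with he
  have he0 : 0 < e := by positivity
  have h1 : e ≤ e1 := (min_le_left _ _).trans ((min_le_left _ _).trans (min_le_left _ _))
  have h2 : e ≤ e2 := (min_le_left _ _).trans ((min_le_left _ _).trans (min_le_right _ _))
  have h3 : e ≤ e3 := (min_le_left _ _).trans ((min_le_right _ _).trans (min_le_left _ _))
  have h4 : e ≤ e4 := (min_le_left _ _).trans ((min_le_right _ _).trans (min_le_right _ _))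
  have h5 : e < 1 := lt_of_le_of_lt (min_le_right _ _) (by norm_num)
  have hM : (0 : ℝ) ≤ (e ^ N1)⁻¹ := by positivity
  have hz : (0 : ℝ) ≤ (e ^ N)⁻¹ := by positivity
  obtain ⟨B', hB'⟩ := hex e he0 h1 _ le_rfl _ hz
  obtain ⟨f, z, hsol, hf, hzb, hEs⟩ := hLim n hn S hOK e (e ^ N1)⁻¹ (e ^ N)⁻¹ (e ^ N)⁻¹
    (max 1 (e ^ N)⁻¹) B' he0 h5 fun L hL => by
      obtain ⟨f, z, hs, hf, hz'⟩ := hB' _ (hUn L ((le_max_left _ _).trans hL))
      exact ⟨f, z, hs, hf, hz', hest e he0 h2 _ hM _ hz L ((le_max_right _ _).trans hL) B' f z hs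
        hf hz'⟩
  obtain ⟨hi, hfl⟩ := hen e he0 h3 _ hM _ hz B' f z hsol hf hzb hEs
  obtain ⟨ℓ, hℓ, g', d, U, hN⟩ := hout' e he0 h4 _ _ le_rfl B' f z hsol hf hzb hEs hi hfl
  rw [hm, hA', hQ, hE] at hN
  exact ⟨ℓ, hℓ, g', d, U, hN⟩

end Crest.Agent.N346.P1

end
end

-- ▼ part N346/An/Morrey
section

/-!
Row 346, Part 1, abstract analysis: Morrey's lemma and the Poincaré inequality with a point value
(helper64, task 173).
-/

set_option autoImplicit false
open MeasureTheory Filter Topology Set Metric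
open scoped ContDiff ENNReal
open Crest.GeometryTopology.CoordMetric
open Crest.MathPhysics.ExteriorData
open Crest.Agent.R238 (HB Ell)

noncomputable section

namespace Crest.Agent.N346.An

variable {n : ℕ}

namespace Mor

theorem gsq_eq (u : E n → ℝ) (x : E n) : gsq u x = ‖fderiv ℝ u x‖ ^ 2 := by
  rw [← Bs.sum_pd_sq]; simp only [gsq, sq]

theorem gsq_nonneg' (u : E n → ℝ) (x : E n) : 0 ≤ gsq u x := by rw [gsq_eq]; positivity

theorem continuous_gsq {u : E n → ℝ} (hu : ContDiff ℝ 1 u) : Continuous (gsq u) :=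
  continuous_finsetSum _ fun i _ => (Bs.continuous_pd hu i).pow 2

theorem integrableOn_ball_of_continuous {g : E n → ℝ} (hg : Continuous g) (x : E n) (r : ℝ) :
    IntegrableOn g (ball x r) :=
  (hg.continuousOn.integrableOn_compact (isCompact_closedBall x r)).mono_set ball_subset_closedBall

/-- volume of the unit ball -/
def om (n : ℕ) : ℝ := volume.real (ball (0 : E n) 1)

theorem om_pos (n : ℕ) : 0 < om n :=
  ENNReal.toReal_pos (measure_ball_pos _ _ one_pos).ne' measure_ball_lt_top.ne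

theorem volume_ball_eq (x : E n) {r : ℝ} (hr : 0 < r) :
    volume (ball x r) = ENNReal.ofReal (om n * r ^ n) := by
  rw [Measure.addHaar_ball_of_pos _ _ hr, finrank_euclideanSpace_fin, mul_comm (om n),
    ENNReal.ofReal_mul (by positivity), om, Measure.real,
    ENNReal.ofReal_toReal measure_ball_lt_top.ne]

theorem real_ball_eq (x : E n) {r : ℝ} (hr : 0 < r) : volume.real (ball x r) = om n * r ^ n := by
  rw [Measure.real, volume_ball_eq x hr, ENNReal.toReal_ofReal (by have := om_pos n; positivity)]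

/-- `L²` Morrey bound implies `L¹` Morrey bound -/
theorem l1_bound {u : E n → ℝ} (hu : ContDiff ℝ 1 u) {β D s : ℝ} {x : E n} (hs : 0 < s)
    (h : s ^ 2 * (∫ y in ball x s, gsq u y) / s ^ n ≤ D * s ^ (2 * β)) :
    ∫⁻ y in ball x s, ‖fderiv ℝ u y‖ₑ ≤
      ENNReal.ofReal ((om n + |D|) / 2 * s ^ n * s ^ (β - 1)) := by
  have hc : Continuous (fderiv ℝ u) := hu.continuous_fderiv one_ne_zero
  have hi : IntegrableOn (fderiv ℝ u) (ball x s) :=
    (hc.continuousOn.integrableOn_compact (isCompact_closedBall x s)).mono_set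
      ball_subset_closedBall
  rw [← ofReal_integral_norm_eq_lintegral_enorm hi]
  refine ENNReal.ofReal_le_ofReal ?_
  set lam := s ^ (β - 1) with hlam
  have hl : 0 < lam := Real.rpow_pos_of_pos hs _
  have hg := integrableOn_ball_of_continuous (continuous_gsq hu) x s
  have h1 : ∫ y in ball x s, ‖fderiv ℝ u y‖ ≤ ∫ y in ball x s, (lam / 2 + gsq u y / (2 * lam)) := by
    refine integral_mono hi.norm ((integrableOn_ball_of_continuous continuous_const x s).add
      (hg.div_const _)) fun y => ?_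
    simp only [gsq_eq]
    rw [div_add_div _ _ (by norm_num) (by positivity), le_div_iff₀ (by positivity)]
    nlinarith [sq_nonneg (lam - ‖fderiv ℝ u y‖)]
  rw [integral_add (integrableOn_ball_of_continuous continuous_const x s) (hg.div_const _),
    setIntegral_const, integral_div, real_ball_eq x hs, smul_eq_mul] at h1
  have h2 : ∫ y in ball x s, gsq u y ≤ |D| * s ^ n * lam ^ 2 := by
    rw [div_le_iff₀ (by positivity)] at h
    have e : s ^ (2 * β) = lam ^ 2 * s ^ 2 := by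
      rw [hlam, ← Real.rpow_natCast, ← Real.rpow_natCast, ← Real.rpow_mul hs.le,
        ← Real.rpow_add hs]
      congr 1; push_cast; ring
    rw [e] at h
    have h3 : D * (lam ^ 2 * s ^ 2) * s ^ n ≤ s ^ 2 * (|D| * s ^ n * lam ^ 2) := by
      calc D * (lam ^ 2 * s ^ 2) * s ^ n ≤ |D| * (lam ^ 2 * s ^ 2) * s ^ n := by
            gcongr; exact le_abs_self D
        _ = _ := by ring
    exact le_of_mul_le_mul_left (h.trans h3) (by positivity)
  refine h1.trans ?_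
  calc om n * s ^ n * (lam / 2) + (∫ y in ball x s, gsq u y) / (2 * lam)
      ≤ om n * s ^ n * (lam / 2) + |D| * s ^ n * lam ^ 2 / (2 * lam) := by gcongr
    _ = _ := by field_simp

theorem lint_rpow {β : ℝ} (hβ : 0 < β) :
    ∫⁻ t in Ioc (0 : ℝ) 1, ENNReal.ofReal (t ^ (β - 1)) = ENNReal.ofReal (1 / β) := by
  have hi : IntegrableOn (fun t : ℝ => t ^ (β - 1)) (Ioc 0 1) :=
    (intervalIntegral.intervalIntegrable_rpow' (a := 0) (b := 1) (by linarith)).1
  rw [← ofReal_integral_eq_lintegral_ofReal hi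
    ((ae_restrict_mem measurableSet_Ioc).mono fun t ht => Real.rpow_nonneg ht.1.le _),
    ← intervalIntegral.integral_of_le zero_le_one, integral_rpow (Or.inl (by linarith))]
  simp [Real.zero_rpow hβ.ne']

/-- mean oscillation with respect to the value at the centre -/
theorem avg_bound {u : E n → ℝ} (hu : ContDiff ℝ 1 u) {β C r : ℝ} {x : E n} (hβ : 0 < β)
    (hC : 0 ≤ C) (hr : 0 < r) (h : ∀ s, 0 < s → s ≤ r →
      ∫⁻ y in ball x s, ‖fderiv ℝ u y‖ₑ ≤ ENNReal.ofReal (C * s ^ n * s ^ (β - 1))) :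
    ∫⁻ w in ball x r, ‖u w - u x‖ₑ ≤ ENNReal.ofReal (C / β * r ^ n * r ^ β) := by
  have hF : Measurable fun z => ‖fderiv ℝ u z‖ₑ := (measurable_fderiv ℝ u).enorm
  have h1 : ∫⁻ w in ball x r, ‖u w - u x‖ₑ ≤ ∫⁻ w in ball x r, ENNReal.ofReal r *
      ∫⁻ t in Icc (0 : ℝ) 1, ‖fderiv ℝ u ((1 - t) • x + t • w)‖ₑ :=
    setLIntegral_mono' measurableSet_ball fun w hw =>
      R236.Poinc.diff_le isOpen_univ convex_univ hu.contDiffOn (mem_univ _) (mem_univ _)
        (by rw [dist_comm]; exact (mem_ball.1 hw).le)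
  have hsw : ∫⁻ w in ball x r, ∫⁻ t in Icc (0 : ℝ) 1, ‖fderiv ℝ u ((1 - t) • x + t • w)‖ₑ =
      ∫⁻ t in Icc (0 : ℝ) 1, ∫⁻ w in ball x r, ‖fderiv ℝ u ((1 - t) • x + t • w)‖ₑ := by
    refine lintegral_lintegral_swap (Measurable.aemeasurable ?_)
    exact hF.comp (by fun_prop)
  rw [lintegral_const_mul' _ _ ENNReal.ofReal_ne_top, hsw, ← restrict_Ioc_eq_restrict_Icc] at h1
  have h2 : ∀ t ∈ Ioc (0 : ℝ) 1, ∫⁻ w in ball x r, ‖fderiv ℝ u ((1 - t) • x + t • w)‖ₑ ≤
      ENNReal.ofReal (C * r ^ n * r ^ (β - 1)) * ENNReal.ofReal (t ^ (β - 1)) := by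
    intro t ht
    have ht0 := ht.1
    have a1 : ∫⁻ w in ball x r, ‖fderiv ℝ u ((1 - t) • x + t • w)‖ₑ ≤
        ∫⁻ w, (ball x (t * r)).indicator (fun z => ‖fderiv ℝ u z‖ₑ) (t • w + (1 - t) • x) := by
      rw [← lintegral_indicator measurableSet_ball]
      refine lintegral_mono fun w => ?_
      by_cases hw : w ∈ ball x r
      · have hm : t • w + (1 - t) • x ∈ ball x (t * r) := by
          rw [mem_ball, dist_eq_norm] at hw ⊢
          rw [show t • w + (1 - t) • x - x = t • (w - x) by module, norm_smul,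
            Real.norm_of_nonneg ht0.le]
          gcongr
        rw [indicator_of_mem hw, indicator_of_mem hm, add_comm]
      · simp [hw]
    rw [R236.Poinc.lintegral_aff _ (hF.indicator measurableSet_ball) ht0.ne',
      lintegral_indicator measurableSet_ball] at a1
    refine a1.trans ((mul_le_mul_right (h (t * r) (by positivity)
      (mul_le_of_le_one_left hr.le ht.2)) _).trans (le_of_eq ?_))
    rw [← ENNReal.ofReal_mul (abs_nonneg _), ← ENNReal.ofReal_mul (by positivity),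
      abs_of_pos (by positivity), Real.mul_rpow ht0.le hr.le]
    congr 1
    field_simp
    ring
  have h3 := setLIntegral_mono' (μ := volume) measurableSet_Ioc h2
  rw [lintegral_const_mul' _ _ ENNReal.ofReal_ne_top, lint_rpow hβ] at h3
  refine h1.trans ((mul_le_mul_right h3 _).trans (le_of_eq ?_))
  rw [← ENNReal.ofReal_mul (by positivity), ← ENNReal.ofReal_mul hr.le,
    Real.rpow_sub_one hr.ne']
  congr 1
  field_simp

theorem near {u : E n → ℝ} (hu : ContDiff ℝ 1 u) {β C r0 : ℝ} (hβ : 0 < β) (hC : 0 ≤ C)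
    (h : ∀ x s, 0 < s → s ≤ r0 →
      ∫⁻ y in ball x s, ‖fderiv ℝ u y‖ₑ ≤ ENNReal.ofReal (C * s ^ n * s ^ (β - 1)))
    {x y : E n} (hxy : 2 * ‖x - y‖ ≤ r0) :
    |u x - u y| ≤ C / β * (1 + 2 ^ n * 2 ^ β) / om n * ‖x - y‖ ^ β := by
  have ho := om_pos n
  rcases eq_or_ne x y with rfl | hne
  · simp only [sub_self, abs_zero]; positivity
  set d := ‖x - y‖ with hd
  have hd0 : 0 < d := norm_pos_iff.2 (sub_ne_zero.2 hne)
  have h1 := avg_bound hu hβ hC hd0 fun s hs hs' => h x s hs (by linarith)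
  have h2 := avg_bound hu hβ hC (r := 2 * d) (by positivity) fun s hs hs' => h y s hs (by linarith)
  have hsub : ball x d ⊆ ball y (2 * d) := ball_subset_ball' (by rw [dist_eq_norm]; linarith)
  have h3 : ‖u x - u y‖ₑ * volume (ball x d) ≤
      (∫⁻ w in ball x d, ‖u w - u x‖ₑ) + ∫⁻ w in ball x d, ‖u w - u y‖ₑ := by
    have hm : Measurable fun w => ‖u w - u x‖ₑ :=
      (hu.continuous.sub continuous_const).measurable.enorm
    rw [← setLIntegral_const, ← lintegral_add_left hm]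
    refine lintegral_mono fun w => ?_
    calc ‖u x - u y‖ₑ = ‖-(u w - u x) + (u w - u y)‖ₑ := by congr 1; ring
      _ ≤ _ := by
        refine (enorm_add_le _ _).trans ?_
        rw [enorm_neg]
  have h4 := h3.trans (add_le_add h1 ((lintegral_mono_set hsub).trans h2))
  rw [volume_ball_eq x hd0, Real.enorm_eq_ofReal_abs, ← ENNReal.ofReal_mul (abs_nonneg _),
    ← ENNReal.ofReal_add (by positivity) (by positivity),
    ENNReal.ofReal_le_ofReal_iff (by positivity), mul_pow, Real.mul_rpow (by norm_num) hd0.le] at h4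
  rw [div_mul_eq_mul_div, le_div_iff₀ ho]
  refine le_of_mul_le_mul_right ?_ (pow_pos hd0 n)
  calc |u x - u y| * om n * d ^ n = |u x - u y| * (om n * d ^ n) := by ring
    _ ≤ _ := h4
    _ = _ := by ring

theorem sq_lintegral_le {f : ℝ → ℝ≥0∞} (hf : AEMeasurable f (volume.restrict (Icc (0 : ℝ) 1))) :
    (∫⁻ t in Icc (0 : ℝ) 1, f t) ^ 2 ≤ ∫⁻ t in Icc (0 : ℝ) 1, f t ^ 2 := by
  have h := ENNReal.lintegral_mul_le_Lp_mul_Lq (volume.restrict (Icc (0 : ℝ) 1))
    Real.HolderConjugate.two_two hf (aemeasurable_const (b := (1 : ℝ≥0∞)))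
  simp only [Pi.mul_apply, mul_one, lintegral_const, Measure.restrict_apply,
    MeasurableSet.univ, univ_inter, Real.volume_Icc, sub_zero, ENNReal.ofReal_one,
    ENNReal.rpow_ofNat, one_pow, ENNReal.one_rpow] at h
  calc (∫⁻ t in Icc (0 : ℝ) 1, f t) ^ 2
      ≤ ((∫⁻ t in Icc (0 : ℝ) 1, f t ^ 2) ^ (1 / 2 : ℝ)) ^ 2 := by gcongr
    _ = _ := by
      rw [← ENNReal.rpow_natCast, ← ENNReal.rpow_mul]
      norm_num

/-- `L²` Poincaré inequality on a convex set (as in `R273.CLin_933.poinc2`) -/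
theorem poinc2 {S : Set (E n)} (hS : MeasurableSet S) (hc : Convex ℝ S) {f : E n → ℝ}
    (hf : ContDiff ℝ 1 f) {d : ℝ} (hd : ∀ x ∈ S, ∀ y ∈ S, dist x y ≤ d) :
    ∫⁻ y in S, ∫⁻ x in S, ‖f y - f x‖ₑ ^ 2
      ≤ ENNReal.ofReal d ^ 2 * (2 ^ n * volume S * ∫⁻ z in S, ‖fderiv ℝ f z‖ₑ ^ 2) := by
  have hF : Measurable (fun z => ‖fderiv ℝ f z‖ₑ ^ 2) := (measurable_fderiv ℝ f).enorm.pow_const 2
  have hle : ∀ y ∈ S, ∀ x ∈ S, ‖f y - f x‖ₑ ^ 2 ≤ ENNReal.ofReal d ^ 2 *
      ∫⁻ t in Icc (0 : ℝ) 1, ‖fderiv ℝ f ((1 - t) • x + t • y)‖ₑ ^ 2 := by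
    intro y hy x hx
    have h1 := R236.Poinc.diff_le isOpen_univ convex_univ hf.contDiffOn (mem_univ x) (mem_univ y)
      (hd x hx y hy)
    have h2 : AEMeasurable (fun t : ℝ => ‖fderiv ℝ f ((1 - t) • x + t • y)‖ₑ)
        (volume.restrict (Icc (0 : ℝ) 1)) :=
      Measurable.aemeasurable ((measurable_fderiv ℝ f).enorm.comp (by fun_prop))
    calc ‖f y - f x‖ₑ ^ 2 ≤ (ENNReal.ofReal d *
          ∫⁻ t in Icc (0 : ℝ) 1, ‖fderiv ℝ f ((1 - t) • x + t • y)‖ₑ) ^ 2 := by gcongr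
      _ = ENNReal.ofReal d ^ 2 *
          (∫⁻ t in Icc (0 : ℝ) 1, ‖fderiv ℝ f ((1 - t) • x + t • y)‖ₑ) ^ 2 := by rw [mul_pow]
      _ ≤ _ := by
        gcongr
        exact sq_lintegral_le h2
  have hne : ENNReal.ofReal d ^ 2 ≠ ⊤ := ENNReal.pow_ne_top ENNReal.ofReal_ne_top
  calc ∫⁻ y in S, ∫⁻ x in S, ‖f y - f x‖ₑ ^ 2
      ≤ ∫⁻ y in S, ∫⁻ x in S, ENNReal.ofReal d ^ 2 *
          ∫⁻ t in Icc (0 : ℝ) 1, ‖fderiv ℝ f ((1 - t) • x + t • y)‖ₑ ^ 2 :=
        setLIntegral_mono' hS fun y hy => setLIntegral_mono' hS fun x hx => hle y hy x hx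
    _ = ENNReal.ofReal d ^ 2 * ∫⁻ y in S, ∫⁻ x in S,
          ∫⁻ t in Icc (0 : ℝ) 1, ‖fderiv ℝ f ((1 - t) • x + t • y)‖ₑ ^ 2 := by
        rw [← lintegral_const_mul' _ _ hne]
        refine lintegral_congr fun y => ?_
        rw [← lintegral_const_mul' _ _ hne]
    _ ≤ _ := by
        gcongr
        exact R236.Poinc.seg hS hc hF

end Mor

open Mor

/-- **Morrey's lemma.** -/
theorem morrey : MorreyStmt := by
  intro n β K D r0 hβ _ hr0
  have ho := om_pos n
  set C1 := (om n + |D|) / 2 / β * (1 + 2 ^ n * 2 ^ β) / om n with hC1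
  set C2 := 2 * |K| / (r0 / 2) ^ β with hC2
  have p1 : 0 ≤ C1 := by positivity
  have p2 : 0 ≤ C2 := by positivity
  refine ⟨|K| + C1 + C2, fun u hu hK h => ⟨fun x => ?_, fun x y => ?_⟩⟩
  · linarith [hK x, le_abs_self K]
  · have p3 : 0 ≤ ‖x - y‖ ^ β := by positivity
    rcases le_total (2 * ‖x - y‖) r0 with hxy | hxy
    · refine (Mor.near hu hβ (by positivity)
        (fun x s hs hs' => Mor.l1_bound hu hs (h x s hs hs')) hxy).trans ?_
      gcongr
      linarith [abs_nonneg K]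
    · have a1 : |u x - u y| ≤ 2 * |K| := by
        linarith [abs_sub (u x) (u y), hK x, hK y, le_abs_self K]
      have a2 : (r0 / 2) ^ β ≤ ‖x - y‖ ^ β := Real.rpow_le_rpow (by positivity) (by linarith) hβ.le
      have a3 : 0 < (r0 / 2) ^ β := by positivity
      calc |u x - u y| ≤ C2 * (r0 / 2) ^ β := by rw [hC2, div_mul_cancel₀ _ a3.ne']; exact a1
        _ ≤ C2 * ‖x - y‖ ^ β := by gcongr
        _ ≤ _ := by gcongr; linarith [abs_nonneg K]

/-- **Poincaré inequality with a point value.** -/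
theorem poin (n : ℕ) : ∃ C : ℝ, 0 < C ∧ ∀ (ι : Type) [Fintype ι] (u : ι → E n → ℝ) (x0 : E n)
    (r : ℝ), 0 < r → (∀ l, ContDiff ℝ 1 (u l)) → ∃ y ∈ ball x0 r,
      ∫ x in ball x0 r, ∑ l, (u l x - u l y) ^ 2 ≤
        C * r ^ 2 * ∫ x in ball x0 r, ∑ l, gsq (u l) x := by
  refine ⟨4 * 2 ^ n, by positivity, fun ι _ u x0 r hr hu => ?_⟩
  have hv0 : volume (ball x0 r) ≠ 0 := (measure_ball_pos _ _ hr).ne'
  have hv1 : volume (ball x0 r) ≠ ⊤ := measure_ball_lt_top.ne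
  have hm : ∀ l, Measurable fun p : E n × E n => ‖u l p.1 - u l p.2‖ₑ ^ 2 := fun l =>
    (((hu l).continuous.comp continuous_fst).sub
      ((hu l).continuous.comp continuous_snd)).measurable.enorm.pow_const 2
  have hm' : ∀ l, Measurable fun y => ∫⁻ x in ball x0 r, ‖u l y - u l x‖ₑ ^ 2 := fun l =>
    (hm l).lintegral_prod_right'
  obtain ⟨y, hy, h⟩ := exists_le_setLAverage (μ := volume) (s := ball x0 r)
    (f := fun y => ∑ l, ∫⁻ x in ball x0 r, ‖u l y - u l x‖ₑ ^ 2) hv0 hv1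
    (Finset.measurable_sum _ fun l _ => hm' l).aemeasurable
  refine ⟨y, hy, ?_⟩
  rw [setLAverage_eq, lintegral_finsetSum _ fun l _ => hm' l] at h
  have h1 : ∑ l, ∫⁻ y in ball x0 r, ∫⁻ x in ball x0 r, ‖u l y - u l x‖ₑ ^ 2 ≤
      volume (ball x0 r) * (ENNReal.ofReal (4 * 2 ^ n * r ^ 2) *
        ∑ l, ∫⁻ z in ball x0 r, ‖fderiv ℝ (u l) z‖ₑ ^ 2) := by
    rw [Finset.mul_sum, Finset.mul_sum]
    refine Finset.sum_le_sum fun l _ => (Mor.poinc2 measurableSet_ball (convex_ball x0 r) (hu l)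
      (d := 2 * r) fun x hx y hy => ?_).trans (le_of_eq ?_)
    · linarith [dist_triangle_right x y x0, mem_ball.1 hx, mem_ball.1 hy]
    · rw [show 4 * 2 ^ n * r ^ 2 = (2 * r) ^ 2 * 2 ^ n by ring,
        ENNReal.ofReal_mul (p := (2 * r) ^ 2) (by positivity), ENNReal.ofReal_pow (by positivity),
        ENNReal.ofReal_pow (by positivity), ENNReal.ofReal_ofNat]
      ring
  have h2 := h.trans (ENNReal.div_le_of_le_mul' h1)
  have i1 : ∀ l, IntegrableOn (fun x => (u l x - u l y) ^ 2) (ball x0 r) := fun l =>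
    integrableOn_ball_of_continuous (((hu l).continuous.sub continuous_const).pow 2) _ _
  have i2 : ∀ l, IntegrableOn (gsq (u l)) (ball x0 r) := fun l =>
    integrableOn_ball_of_continuous (continuous_gsq (hu l)) _ _
  have e1 : ∀ l, ∫⁻ x in ball x0 r, ‖u l y - u l x‖ₑ ^ 2 =
      ENNReal.ofReal (∫ x in ball x0 r, (u l x - u l y) ^ 2) := fun l => by
    rw [ofReal_integral_eq_lintegral_ofReal (i1 l) (ae_of_all _ fun x => sq_nonneg _)]
    refine lintegral_congr fun x => ?_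
    rw [Real.enorm_eq_ofReal_abs, ← ENNReal.ofReal_pow (abs_nonneg _), sq_abs]
    congr 1; ring
  have e2 : ∀ l, ∫⁻ z in ball x0 r, ‖fderiv ℝ (u l) z‖ₑ ^ 2 =
      ENNReal.ofReal (∫ x in ball x0 r, gsq (u l) x) := fun l => by
    rw [ofReal_integral_eq_lintegral_ofReal (i2 l) (ae_of_all _ fun x => gsq_nonneg' _ _)]
    refine lintegral_congr fun x => ?_
    rw [gsq_eq, ENNReal.ofReal_pow (norm_nonneg _), ofReal_norm]
  have n1 : ∀ l, 0 ≤ ∫ x in ball x0 r, (u l x - u l y) ^ 2 := fun l =>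
    integral_nonneg fun x => sq_nonneg _
  have n2 : ∀ l, 0 ≤ ∫ x in ball x0 r, gsq (u l) x := fun l =>
    integral_nonneg fun x => gsq_nonneg' _ _
  simp only [e1, e2] at h2
  rw [← ENNReal.ofReal_sum_of_nonneg fun l _ => n1 l, ← ENNReal.ofReal_sum_of_nonneg fun l _ => n2 l,
    ← ENNReal.ofReal_mul (by positivity), ENNReal.ofReal_le_ofReal_iff
      (mul_nonneg (by positivity) (Finset.sum_nonneg fun l _ => n2 l))] at h2
  rw [integral_finsetSum _ fun l _ => i1 l, integral_finsetSum _ fun l _ => i2 l]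
  exact h2

end Crest.Agent.N346.An

end
end

-- ▼ part N346/An/L2Sch
section

/-!
Row 346, An-G (helper26): the `L² → C²` estimate for constant coefficients.
-/

set_option autoImplicit false
open MeasureTheory Filter Topology Set Metric
open scoped ContDiff Gradient
open Crest.GeometryTopology.CoordMetric
open Crest.Agent.R238 (Ell)
open Crest.Agent.R238.Sch (D2 ee norm_entry_le)
open Crest.Agent.R273.SchA_152 Crest.Agent.R273.SchC_152
open Crest.Agent.R273.SchB_152 (P2)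

noncomputable section

namespace Crest.Agent.N346.An

variable {n : ℕ}

theorem pd_pd_eq_D2 {u : E n → ℝ} {x : E n} (hu : ContDiffAt ℝ 2 u x) (i j : Fin n) :
    pderiv i (pderiv j u) x = D2 u x (ee i) (ee j) := by
  have h : DifferentiableAt ℝ (fderiv ℝ u) x :=
    (hu.fderiv_right (m := 1) (by norm_num)).differentiableAt (by norm_num)
  have := fderiv_clm_apply h (differentiableAt_const (EuclideanSpace.single j (1 : ℝ)))
  unfold pderiv
  rw [this]
  simp [D2, ee]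

theorem aD2_eq_P2 (A : E n → Matrix (Fin n) (Fin n) ℝ) {u : E n → ℝ} {x : E n}
    (hu : ContDiffAt ℝ 2 u x) : aD2 A u x = P2 A u x := by
  simp only [aD2, P2, pd_pd_eq_D2 hu]

theorem dvg_const (A : Matrix (Fin n) (Fin n) ℝ) {u : E n → ℝ} (hu : ContDiff ℝ 2 u) (x : E n) :
    NLib.Ell.dvg (fun x => NLib.Ell.mv A (∇ u x)) x = aD2 (fun _ => A) u x := by
  rw [NLib.Ell.dvg_mv (fun _ => A), aD2]
  refine Finset.sum_congr rfl fun i _ => ?_
  have hd : ∀ j, DifferentiableAt ℝ (pderiv j u) x := fun j =>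
    (((hu.fderiv_right (m := 1) (by norm_num)).clm_apply contDiff_const).differentiable
      (by norm_num)) x
  have h1 : HasFDerivAt (fun y => ∑ j, A i j * pderiv j u y) (∑ j, A i j • fderiv ℝ (pderiv j u) x) x :=
    HasFDerivAt.fun_sum fun j _ => (hd j).hasFDerivAt.const_mul (A i j)
  have h2 : fderiv ℝ (fun y => ∑ j, A i j * fderiv ℝ u y (EuclideanSpace.single j 1)) x = _ :=
    h1.fderiv
  rw [h2]
  simp [pderiv]

theorem ell_entry {lo hi : ℝ} {A : Matrix (Fin n) (Fin n) ℝ} (h : Ell lo hi A) (hlo : 0 ≤ lo)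
    (hhi : 0 < hi) (i j : Fin n) : |A i j| ≤ hi := by
  have h1 := NLib.Ell.up_mv h hlo hhi (EuclideanSpace.single j 1)
  have h2 := PiLp.norm_apply_le (NLib.Ell.mv A (EuclideanSpace.single j 1)) i
  simp only [NLib.Ell.mv_apply, PiLp.single_apply, mul_ite, mul_one, mul_zero,
    Finset.sum_ite_eq', Finset.mem_univ, if_true, Real.norm_eq_abs, PiLp.norm_single,
    abs_one] at h1 h2
  linarith

theorem exists_HO {F : Type*} [NormedAddCommGroup F] [NormedSpace ℝ F] {a : ℝ} (ha : 0 < a)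
    (ha1 : a < 1) {g : E n → F} (c1 : ContDiff ℝ 1 g) (x0 : E n) {ρ : ℝ} (hρ : ρ ≤ 1 / 2) :
    ∃ V, HO a V (closedBall x0 ρ) g := by
  obtain ⟨B0, hB0⟩ := (isCompact_closedBall x0 ρ).exists_bound_of_continuousOn
    c1.continuous.continuousOn
  obtain ⟨B1, hB1⟩ := (isCompact_closedBall x0 ρ).exists_bound_of_continuousOn
    (c1.continuous_fderiv (by norm_num)).continuousOn
  refine ⟨max B0 B1, fun y hy => (hB0 y hy).trans (le_max_left _ _), fun y hy z hz => ?_⟩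
  have h1 := (convex_closedBall x0 ρ).norm_image_sub_le_of_norm_fderiv_le
    (fun w _ => c1.differentiable (by norm_num) w) hB1 hz hy
  have h2 : ‖y - z‖ ≤ 1 := by
    rw [← dist_eq_norm]
    linarith [dist_triangle_right y z x0, mem_closedBall.1 hy, mem_closedBall.1 hz]
  have h3 : ‖y - z‖ ≤ ‖y - z‖ ^ a := by
    simpa using Real.rpow_le_rpow_of_exponent_ge' (norm_nonneg _) h2 ha.le ha1.le
  exact h1.trans (mul_le_mul (le_max_right _ _) h3 (norm_nonneg _)
    (((norm_nonneg _).trans (hB0 y hy)).trans (le_max_left _ _)))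

theorem l2Sch : L2SchStmt := by
  intro n hn a lo hi R ha ha1 hlo hlh hR hR1
  have hhi : 0 < hi := hlo.trans_le hlh
  obtain ⟨C1, hC1, H1⟩ := NLib.Ell.sup_div (n := n) hn hlo hhi
  obtain ⟨C2, hC2, H2⟩ := int_schauder n ha ha1 hlo hlh hi (R := R / 4) (by positivity) (by linarith)
  set q := √(((R / 2) ^ n)⁻¹) with hq
  have hq0 : 0 ≤ q := Real.sqrt_nonneg _
  refine ⟨C2 * (1 + C1 * (q + 1)), by positivity, fun A u N S hE hu hS hN hH hI x hx => ?_⟩
  have hu2 : ContDiff ℝ 2 u := hu.of_le (by norm_num)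
  have hN0 : 0 ≤ N := (abs_nonneg _).trans (hN 0 (mem_closedBall_self hR.le))
  have e2 : 2 * (R / 2) = R := by ring
  have s1 := H1 (fun _ => A) u 0 (R / 2) N (by positivity) hN0 (fun _ _ => contDiffOn_const)
    (fun _ _ => hE) hu2.contDiffOn (fun y hy => by
      rw [dvg_const A hu2]; exact hN y (ball_subset_closedBall (e2 ▸ hy)))
  have s2 : ∫ y in closedBall (0 : E n) (3 / 2 * (R / 2)), u y ^ 2 ≤ S ^ 2 :=
    (setIntegral_mono_set (((hu.continuous.pow 2).continuousOn.integrableOn_compact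
      (isCompact_closedBall 0 R)).mono_set ball_subset_closedBall)
      (Eventually.of_forall fun _ => sq_nonneg _)
      (LE.le.eventuallyLE (closedBall_subset_ball (by linarith)))).trans hI
  have s3 : ∀ y ∈ closedBall (0 : E n) (R / 4), |u y| ≤ C1 * (q * S + N) := fun y hy => by
    refine (s1 y (closedBall_subset_ball (by linarith) hy)).trans
      (mul_le_mul_of_nonneg_left (add_le_add ?_ ?_) hC1.le)
    · rw [Real.sqrt_mul (by positivity), ← hq]
      exact mul_le_mul_of_nonneg_left (Real.sqrt_le_iff.2 ⟨hS, s2⟩) hq0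
    · exact mul_le_of_le_one_left hN0 (by nlinarith)
  have hsub : closedBall (0 : E n) (R / 4) ⊆ closedBall 0 R := closedBall_subset_closedBall (by linarith)
  obtain ⟨V, hV⟩ := exists_HO ha ha1 (g := D2 u)
    ((hu.fderiv_right (m := 2) (by norm_num)).fderiv_right (m := 1) (by norm_num)) 0
    (ρ := R / 4) (by linarith)
  obtain ⟨k1, k2⟩ := H2 0 (fun _ => A) (fun _ _ => hE) (fun i j => ⟨fun _ _ =>
    ell_entry hE hlo.le hhi i j, fun _ _ _ _ => by simp; positivity⟩) u N _ hu2 ⟨V, hV⟩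
    ⟨fun y hy => by rw [← aD2_eq_P2 _ hu2.contDiffAt]; exact hN y (hsub hy), fun y hy z hz => by
      rw [← aD2_eq_P2 _ hu2.contDiffAt, ← aD2_eq_P2 _ hu2.contDiffAt]
      exact hH y (hsub hy) z (hsub hz)⟩ s3
  have hx' : x ∈ closedBall (0 : E n) (R / 4 / 2) := by rwa [show R / 4 / 2 = R / 8 by ring]
  have hfin : C2 * (N + C1 * (q * S + N)) ≤ C2 * (1 + C1 * (q + 1)) * (N + S) := by
    rw [mul_assoc]
    refine mul_le_mul_of_nonneg_left ?_ hC2.le
    nlinarith [mul_nonneg hC1.le hS, mul_nonneg (mul_nonneg hC1.le hq0) hN0]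
  refine ⟨fun i => le_trans ?_ ((k2.d0 x hx').trans hfin), fun i j => ?_⟩
  · simpa [pderiv] using (fderiv ℝ u x).le_opNorm (EuclideanSpace.single i 1)
  · rw [pd_pd_eq_D2 hu2.contDiffAt]
    exact (norm_entry_le _ i j).trans ((k1.bdd x hx').trans hfin)

end Crest.Agent.N346.An

end
end

-- ▼ part N346/An/Boot
section

/-!
Row 346, An-J (helper28): the bootstrap `boot : GSchStmt → BootStmt`.
-/

set_option autoImplicit false
set_option linter.unusedSectionVars false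
open MeasureTheory Filter Topology Set Metric
open scoped ContDiff
open Crest.GeometryTopology.CoordMetric
open Crest.MathPhysics.ExteriorData
open Crest.Agent.R238 (HB Ell)

noncomputable section

namespace Crest.Agent.N346.An

variable {n : ℕ} {ι : Type} {a : ℝ}

theorem three_le_inf : (3 : WithTop ℕ∞) ≤ ∞ := nat_le_inf 3

theorem two_le_inf : (2 : WithTop ℕ∞) ≤ ∞ := nat_le_inf 2

/-- differentiating `A : d²u` -/
theorem pd_aD2 {A : E n → Matrix (Fin n) (Fin n) ℝ} {u : E n → ℝ}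
    (hA : ∀ k l, ContDiff ℝ ∞ fun x => A x k l) (hu : ContDiff ℝ ∞ u) (j : Fin n) (x : E n) :
    aD2 A (pderiv j u) x = pderiv j (aD2 A u) x
      - ∑ k, ∑ l, pderiv j (fun x => A x k l) x * pderiv k (pderiv l u) x := by
  have h2 : ∀ k l, ContDiff ℝ ∞ (pderiv k (pderiv l u)) := fun k l =>
    Bs.contDiff_pd (Bs.contDiff_pd hu l) k
  have e : pderiv j (aD2 A u) x = ∑ k, ∑ l, (pderiv j (fun x => A x k l) x
      * pderiv k (pderiv l u) x + A x k l * pderiv j (pderiv k (pderiv l u)) x) := by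
    unfold aD2
    rw [Bs.pd_sum fun k _ => Bs.smooth_diff (ContDiff.sum fun l _ => (hA k l).mul (h2 k l)) x]
    refine Finset.sum_congr rfl fun k _ => ?_
    rw [Bs.pd_sum fun l _ => Bs.smooth_diff ((hA k l).mul (h2 k l)) x]
    exact Finset.sum_congr rfl fun l _ =>
      Bs.pd_mul (Bs.smooth_diff (hA k l) x) (Bs.smooth_diff (h2 k l) x) j
  have c : ∀ k l, pderiv j (pderiv k (pderiv l u)) x = pderiv k (pderiv l (pderiv j u)) x := by
    intro k l
    rw [Bs.pd_comm ((Bs.contDiff_pd hu l).of_le two_le_inf).contDiffAt,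
      show pderiv j (pderiv l u) = pderiv l (pderiv j u) from
        funext fun y => Bs.pd_comm (hu.of_le two_le_inf).contDiffAt j l]
  simp only [e, c, Finset.sum_add_distrib, aD2]
  ring

/-- linear higher order Schauder estimate -/
theorem lin_uh (hG : GSchStmt) (ha : 0 < a) (ha1 : a < 1) {lo hi : ℝ} (hlo : 0 < lo)
    (hhi : lo ≤ hi) {A : ι → E n → Matrix (Fin n) (Fin n) ℝ} (hE : ∀ i x, Ell lo hi (A i x)) :
    ∀ (k : ℕ) {u : ι → E n → ℝ}, (∀ p q, UH a k fun i x => A i x p q) →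
      (∀ i, ContDiff ℝ ∞ (u i)) → (∃ S, ∀ i x, |u i x| ≤ S) →
      (UH a k fun i => aD2 (A i) (u i)) → UH a (k + 2) u := by
  intro k
  induction k with
  | zero =>
    intro u hA hu ⟨S, hS⟩ hg
    obtain ⟨M, -, hM⟩ := hb_common fun p : Fin n × Fin n => (hA p.1 p.2).u0.2
    obtain ⟨N, hN⟩ := hg.u0.2
    obtain ⟨C, -, hC⟩ := hG n a lo hi M ha ha1 hlo hhi
    exact UH.of_H2 hu fun i => hC (A i) (u i) N S (hE i) (fun p q => hM (p, q) i)
      ((hu i).of_le two_le_inf) (Or.inl ((hu i).of_le three_le_inf)) (hN i) (hS i)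
  | succ k ih =>
    intro u hA hu hS hg
    have h2 : UH a (k + 2) u := ih (fun p q => (hA p q).pred) hu hS hg.pred
    refine ⟨h2.u0, fun j => ih (fun p q => (hA p q).pred) (fun i => Bs.contDiff_pd (hu i) j)
      (h2.pd j).u0.bdd ?_⟩
    exact ((hg.pd j).sub (UH.sum Finset.univ fun p _ => UH.sum Finset.univ fun q _ =>
      ((hA p q).pd j).mul ((h2.pd q).pd p))).congr fun i x =>
        pd_aD2 (fun p q => (hA p q).smooth i) (hu i) j x

/-- **R5** -/
theorem boot (hG : GSchStmt) : BootStmt := by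
  intro n ι S f z hA hS β K hβ hβ1 hH
  have hf2 : UH β 2 f := UH.of_H2 (fun i => (hS i).sf) fun i => (hH i).1
  have hz2 : UH β 2 z := UH.of_H2 (fun i => (hS i).sz) fun i => (hH i).2
  obtain ⟨M, hM⟩ := n0_bdd hf2.pred hz2.pred.pred
  obtain ⟨lo, hi, hlo, hhi, hE⟩ := hA.ell M
  have key : ∀ k, UH β (k + 2) f ∧ UH β (k + 1) z := by
    intro k
    induction k with
    | zero => exact ⟨hf2, hz2.pred⟩
    | succ k ih =>
      obtain ⟨hf, hz⟩ := ih
      have hz' : UH β (k + 2) z := lin_uh hG hβ hβ1 hlo hhi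
        (A := fun i y => (S i).a2 (st (f i) (z i) y)) (fun i x => (hE i _ (hM i x)).2) k
        (fun p q => (hA.a2 p q).along_uh hβ hβ1.le hf.pred hz.pred) hz.smooth hz.u0.bdd
        ((hA.F2.ub.along1_uh hβ hβ1.le hf hz).congr fun i x => (hS i).e2 x)
      refine ⟨lin_uh hG hβ hβ1 hlo hhi
        (A := fun i y => (S i).a1 (st (f i) (z i) y)) (fun i x => (hE i _ (hM i x)).1) (k + 1)
        (fun p q => (hA.a1 p q).along_uh hβ hβ1.le hf hz) hf.smooth hf.u0.bdd ?_, hz'⟩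
      exact ((hA.c1.along_uh hβ hβ1.le hf hz).add (UH.sum Finset.univ fun p _ =>
        ((hA.b1 p).along_uh hβ hβ1.le hf hz).mul (hz'.pd p))).congr fun i x => (hS i).e1 x
  exact ⟨uc_of_uh fun k => (key k).1.le (by omega), uc_of_uh fun k => (key k).2.pred⟩

end Crest.Agent.N346.An

end
end

-- ▼ part N346/An/Grad
section

/-!
Row 346, An-I (helper28): `grad : GSchStmt → GradStmt` (interpolation and scaling).
-/

set_option autoImplicit false
set_option linter.unusedSectionVars false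
open MeasureTheory Filter Topology Set Metric
open scoped ContDiff
open Crest.GeometryTopology.CoordMetric
open Crest.MathPhysics.ExteriorData
open Crest.Agent.R238 (HB Ell)

noncomputable section

namespace Crest.Agent.N346.An

open Crest.Agent.R238.Boot (hb_sum hb_of_lip)

variable {n : ℕ} {β h K : ℝ} {u : E n → ℝ}

theorem mvt_pd (hu : ContDiff ℝ ∞ u) (x : E n) (i : Fin n) (h0 : 0 < h) :
    ∃ s, 0 < s ∧ s < h ∧ u (x + EuclideanSpace.single i h) - u x
      = h * pderiv i u (x + EuclideanSpace.single i s) := by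
  have e : ∀ t : ℝ, (EuclideanSpace.single i t : E n) = t • EuclideanSpace.single i 1 := by
    intro t
    ext j
    simp
  have hd : ∀ t : ℝ, HasDerivAt (fun t : ℝ => u (x + t • EuclideanSpace.single i 1))
      (pderiv i u (x + t • EuclideanSpace.single i 1)) t := fun t =>
    (Bs.smooth_diff hu _).hasFDerivAt.comp_hasDerivAt t (by
      simpa using ((hasDerivAt_id t).smul_const (EuclideanSpace.single i (1 : ℝ) : E n)).const_add x)
  obtain ⟨s, hs, hs'⟩ := exists_hasDerivAt_eq_slope _ _ h0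
    (fun t _ => (hd t).continuousAt.continuousWithinAt) (fun t _ => hd t)
  refine ⟨s, hs.1, hs.2, ?_⟩
  rw [e h, e s, hs']
  simp only [zero_smul, add_zero, sub_zero]
  field_simp

theorem norm_single' (i : Fin n) {s : ℝ} (hs : 0 ≤ s) :
    ‖(EuclideanSpace.single i s : E n)‖ = s := by
  simp [abs_of_nonneg hs]

theorem hb_step (hK : HB β K u) (x : E n) (i : Fin n) (h0 : 0 ≤ h) :
    |u (x + EuclideanSpace.single i h) - u x| ≤ K * h ^ β := by
  have := hK.2 (x + EuclideanSpace.single i h) x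
  rwa [add_sub_cancel_left, norm_single' i h0] at this

/-- first order interpolation -/
theorem pd_interp (hu : ContDiff ℝ ∞ u) (hK : HB β K u) (h0 : 0 < h) (x : E n) (i : Fin n) {Q : ℝ}
    (hQ : ∀ y, ‖y - x‖ ≤ h → |pderiv i u y - pderiv i u x| ≤ Q) :
    |pderiv i u x| ≤ K * (h ^ β * h⁻¹) + Q := by
  obtain ⟨s, hs0, hs1, hs⟩ := mvt_pd hu x i h0
  have h1 := hb_step hK x i h0.le
  have h2 := hQ (x + EuclideanSpace.single i s) (by
    rw [add_sub_cancel_left, norm_single' i hs0.le]; exact hs1.le)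
  rw [hs, abs_mul, abs_of_pos h0, mul_comm, ← le_mul_inv_iff₀ h0, mul_assoc] at h1
  have h3 := abs_sub_abs_le_abs_sub (pderiv i u x) (pderiv i u (x + EuclideanSpace.single i s))
  rw [abs_sub_comm] at h3
  linarith

/-- second order interpolation -/
theorem pd2_interp (hβ : 0 < β) (hβ1 : β ≤ 1) (hu : ContDiff ℝ ∞ u) (hK : HB β K u) (h0 : 0 < h)
    {i j : Fin n} {N : ℝ} (hN : HB β N (pderiv j (pderiv i u))) (x : E n) :
    |pderiv j (pderiv i u) x| ≤ 2 * K * (h ^ β * h⁻¹ * h⁻¹) + 2 * N * h ^ β := by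
  set c : E n := EuclideanSpace.single j h with hc
  have hu' : ContDiff ℝ ∞ fun y => u (y + c) := hu.comp (contDiff_id.add contDiff_const)
  obtain ⟨s, hs0, hs1, hs⟩ := mvt_pd (hu'.sub hu) x i h0
  rw [Bs.pd_sub (Bs.smooth_diff hu' _) (Bs.smooth_diff hu _),
    show pderiv i (fun y => u (y + c)) (x + EuclideanSpace.single i s)
      = pderiv i u (x + EuclideanSpace.single i s + c) from by
        unfold pderiv; rw [fderiv_comp_add_right]] at hs
  obtain ⟨t, ht0, ht1, ht⟩ :=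
    mvt_pd (Bs.contDiff_pd hu i) (x + EuclideanSpace.single i s) j h0
  rw [ht] at hs
  set y : E n := x + EuclideanSpace.single i s + EuclideanSpace.single j t with hy
  have h1 := hb_step hK (x + EuclideanSpace.single i h) j h0.le
  have h2 := hb_step hK x j h0.le
  have h3 : |h * (h * pderiv j (pderiv i u) y)| ≤ 2 * K * h ^ β := by
    rw [← hs]
    exact (abs_sub _ _).trans (by linarith)
  rw [abs_mul, abs_mul, abs_of_pos h0, mul_comm, ← le_mul_inv_iff₀ h0, mul_comm,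
    ← le_mul_inv_iff₀ h0] at h3
  have h4 : ‖x - y‖ ≤ 2 * h := by
    rw [norm_sub_rev, hy, add_assoc, add_sub_cancel_left]
    refine (norm_add_le _ _).trans ?_
    rw [norm_single' i hs0.le, norm_single' j ht0.le]
    linarith
  have h5 : ‖x - y‖ ^ β ≤ 2 * h ^ β := by
    refine (Real.rpow_le_rpow (norm_nonneg _) h4 hβ.le).trans ?_
    rw [Real.mul_rpow zero_le_two h0.le]
    exact mul_le_mul_of_nonneg_right (Real.rpow_le_self_of_one_le one_le_two hβ1)
      (Real.rpow_nonneg h0.le _)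
  have h6 := (hN.2 x y).trans (mul_le_mul_of_nonneg_left h5 (R238.Boot.HB.nonneg hN))
  have h7 := abs_sub_abs_le_abs_sub (pderiv j (pderiv i u) x) (pderiv j (pderiv i u) y)
  linarith

theorem lip_of_pd (hu : ContDiff ℝ ∞ u) {B : ℝ} (hB0 : 0 ≤ B) (hB : ∀ j x, |pderiv j u x| ≤ B)
    (x y : E n) : |u x - u y| ≤ n * B * ‖x - y‖ :=
  Convex.norm_image_sub_le_of_norm_fderiv_le (𝕜 := ℝ) (f := u) (s := univ)
    (fun w _ => Bs.smooth_diff hu w)
    (fun w _ => R238.Boot.norm_fderiv_le (fun j => hB j w) hB0) convex_univ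
    (mem_univ y) (mem_univ x)

/-- Hölder constant at scale `h` -/
theorem hol_scale (hβ : 0 < β) (hβ1 : β ≤ 1) (h0 : 0 < h) {G L : ℝ} (hL : 0 ≤ L)
    (hb : ∀ x, |u x| ≤ G * h ^ β) (hl : ∀ x y, |u x - u y| ≤ L * (h ^ β * h⁻¹) * ‖x - y‖)
    (x y : E n) : |u x - u y| ≤ (2 * G + L) * ‖x - y‖ ^ β := by
  have hq : 0 < h ^ β := Real.rpow_pos_of_pos h0 _
  have hG : 0 ≤ G := nonneg_of_mul_nonneg_left ((abs_nonneg _).trans (hb 0)) hq
  have hr : 0 ≤ ‖x - y‖ ^ β := Real.rpow_nonneg (norm_nonneg _) _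
  rcases le_or_gt ‖x - y‖ h with h1 | h1
  · have h2 : ‖x - y‖ / h ≤ (‖x - y‖ / h) ^ β :=
      Real.self_le_rpow_of_le_one (by positivity) ((div_le_one h0).2 h1) hβ1
    rw [Real.div_rpow (norm_nonneg _) h0.le, le_div_iff₀ hq] at h2
    calc |u x - u y| ≤ L * (‖x - y‖ / h * h ^ β) := (hl x y).trans_eq (by ring)
      _ ≤ L * ‖x - y‖ ^ β := mul_le_mul_of_nonneg_left h2 hL
      _ ≤ _ := mul_le_mul_of_nonneg_right (by linarith) hr
  · have h2 : h ^ β ≤ ‖x - y‖ ^ β := Real.rpow_le_rpow h0.le h1.le hβ.le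
    calc |u x - u y| ≤ |u x| + |u y| := abs_sub _ _
      _ ≤ 2 * G * h ^ β := by linarith [hb x, hb y]
      _ ≤ 2 * G * ‖x - y‖ ^ β := mul_le_mul_of_nonneg_left h2 (by linarith)
      _ ≤ _ := mul_le_mul_of_nonneg_right (by linarith) hr

/-- the gradient at scale `h` -/
theorem dz_est (hβ : 0 < β) (hβ1 : β ≤ 1) (hK0 : 0 ≤ K) : ∃ D, 0 ≤ D ∧ ∀ (u : E n → ℝ) (h : ℝ),
    ContDiff ℝ ∞ u → HB β K u → 0 < h → h ≤ 1 →
    (∀ k l, HB β (h⁻¹ * h⁻¹) (pderiv k (pderiv l u))) →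
    ∀ k, (∀ x, |pderiv k u x| ≤ D * (h ^ β * h⁻¹)) ∧ HB β (D * h⁻¹) (pderiv k u) := by
  refine ⟨2 * (K + n * (2 * K + 2)) + n * (2 * K + 2), by positivity,
    fun u h hu hK h0 h1 hN k => ?_⟩
  have hq : 0 < h ^ β := Real.rpow_pos_of_pos h0 _
  have hq1 : h ^ β ≤ 1 := Real.rpow_le_one h0.le h1 hβ.le
  have hr : 0 < h⁻¹ := inv_pos.2 h0
  have hB : ∀ j x, |pderiv j (pderiv k u) x| ≤ (2 * K + 2) * (h ^ β * h⁻¹ * h⁻¹) := fun j x =>
    (pd2_interp hβ hβ1 hu hK h0 (hN j k) x).trans_eq (by ring)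
  have hL := lip_of_pd (Bs.contDiff_pd hu k) (by positivity) hB
  have hA : ∀ x, |pderiv k u x| ≤ (K + n * (2 * K + 2)) * (h ^ β * h⁻¹) := fun x => by
    refine (pd_interp hu hK h0 x k (Q := n * (2 * K + 2) * (h ^ β * h⁻¹)) fun y hy =>
      (hL y x).trans ((mul_le_mul_of_nonneg_left hy (by positivity)).trans_eq ?_)).trans_eq
      (by ring)
    field_simp
  have hA' : ∀ x, |pderiv k u x|
      ≤ (2 * (K + n * (2 * K + 2)) + n * (2 * K + 2)) * (h ^ β * h⁻¹) := fun x =>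
    (hA x).trans (mul_le_mul_of_nonneg_right (by
      have : 0 ≤ (n : ℝ) * (2 * K + 2) := by positivity
      linarith) (by positivity))
  refine ⟨hA', fun x => (hA' x).trans (mul_le_mul_of_nonneg_left ?_ (by positivity)),
    fun x y => ?_⟩
  · exact mul_le_of_le_one_left hr.le hq1
  · exact (hol_scale hβ hβ1 h0 (G := (K + n * (2 * K + 2)) * h⁻¹) (L := n * (2 * K + 2) * h⁻¹)
      (by positivity) (fun x => (hA x).trans_eq (by ring))
      (fun x y => (hL x y).trans_eq (by ring)) x y).trans_eq (by ring)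

theorem H2.mono {M M' : ℝ} (h : H2 β M u) (hM : M ≤ M') : H2 β M' u :=
  ⟨R238.Boot.HB.mono h.1 hM, fun i => R238.Boot.HB.mono (h.2.1 i) hM,
    fun i j => R238.Boot.HB.mono (h.2.2 i j) hM⟩

/-- the estimate at scale `h` -/
theorem grad_step (hG : GSchStmt) {ι : Type} {S : ι → Sys n} {f z : ι → E n → ℝ} (hA : Adm S)
    (hS : ∀ i, (S i).Sol (f i) (z i)) {M : ℝ} (hM : ∀ i x, N0 (st (f i) (z i) x) ≤ M)
    (hβ : 0 < β) (hβ1 : β < 1) (hK0 : 0 ≤ K) (hM0 : 0 ≤ M)
    (hK : ∀ i, HB β K (z i) ∧ ∀ k, HB β K (pderiv k (f i))) :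
    ∃ C, 0 ≤ C ∧ ∀ i (h : ℝ), 0 < h → h ≤ 1 →
      (∀ k l, HB β (h⁻¹ * h⁻¹) (pderiv k (pderiv l (z i)))) →
      H2 β (C * h⁻¹) (f i) ∧ H2 β (C * (h ^ β * h⁻¹ * h⁻¹)) (z i) := by
  have hfM : ∀ i x, |f i x| ≤ M := fun i x => (norm_fst_le (st (f i) (z i) x).2).trans (hM i x)
  have hl : LH β fun i => st (f i) (z i) := lh_st hβ1.le
    ⟨_, fun i => hb_of_lip hβ hβ1.le (hfM i)
      (lip_of_pd (hS i).sf hK0 fun j => ((hK i).2 j).1)⟩ ⟨K, fun i => (hK i).1⟩
    fun k => ⟨K, fun i => (hK i).2 k⟩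
  have hc : ∀ {Θ : ι → Y0 n → ℝ}, UB N0 Θ → ∃ M, ∀ i, HB β M fun x => Θ i (st (f i) (z i) x) :=
    fun h => h.comp_hb hβ.le convex_N0 ⟨M, hM⟩ hl
  obtain ⟨A1, -, hA1⟩ := hb_common fun p : Fin n × Fin n => hc (hA.a1 p.1 p.2)
  obtain ⟨A2, -, hA2⟩ := hb_common fun p : Fin n × Fin n => hc (hA.a2 p.1 p.2)
  obtain ⟨B1, hB10, hB1⟩ := hb_common fun k => hc (hA.b1 k)
  obtain ⟨G1, hG10, hG1⟩ := hb_common fun _ : Unit => hc hA.c1
  obtain ⟨L, hL0, hL⟩ := hl
  obtain ⟨lo, hi, hlo, hhi, hE⟩ := hA.ell M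
  obtain ⟨C1, hC10, hC1⟩ := hG n β lo hi A1 hβ hβ1 hlo hhi
  obtain ⟨C2, hC20, hC2⟩ := hG n β lo hi A2 hβ hβ1 hlo hhi
  obtain ⟨D, hD0, hD⟩ := dz_est (n := n) hβ hβ1.le hK0
  obtain ⟨Pb, hPb0, hPb⟩ := hA.F2.bound M
  obtain ⟨Pd, hPd0, hPd⟩ := hA.F2.diff M
  obtain ⟨Cf, hCf⟩ : ∃ Cf, Cf = C1 * (G1 + n * (2 * (B1 * D)) + M) := ⟨_, rfl⟩
  have hCf0 : 0 ≤ Cf := by rw [hCf]; positivity
  obtain ⟨T, hT⟩ : ∃ T, T = 1 + (D + (K + Cf)) := ⟨_, rfl⟩
  have hT0 : 0 ≤ T := by rw [hT]; positivity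
  obtain ⟨Cz, hCz⟩ : ∃ Cz, Cz = C2 * (2 * (Pb * T ^ 2) + Pd * (T ^ 2 * L + 2 * T * (D + Cf)) + K) :=
    ⟨_, rfl⟩
  have hCz0 : 0 ≤ Cz := by rw [hCz]; positivity
  refine ⟨Cf + Cz, by positivity, fun i h h0 h1 hN => ?_⟩
  have hsf := (hS i).sf
  have hsz := (hS i).sz
  have hd := hD (z i) h hsz (hK i).1 h0 h1 hN
  have hq : 0 < h ^ β := Real.rpow_pos_of_pos h0 _
  have hr1 : 1 ≤ h⁻¹ := (one_le_inv₀ h0).2 h1
  have hp1 : 1 ≤ h ^ β * h⁻¹ := by
    rw [le_mul_inv_iff₀ h0, one_mul]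
    exact Real.self_le_rpow_of_le_one h0.le h1 hβ1.le
  have hpr : h ^ β * h⁻¹ ≤ h⁻¹ :=
    mul_le_of_le_one_left (by positivity) (Real.rpow_le_one h0.le h1 hβ.le)
  -- the equation for `f`
  have hf : H2 β (Cf * h⁻¹) (f i) := by
    have h2 := R238.Boot.HB.add (hG1 () i) (hb_sum Finset.univ fun k _ =>
      R238.Boot.HB.mul (hB1 k i) (hd k).2)
    rw [← funext (hS i).e1] at h2
    refine (hC1 _ _ _ M (fun x => (hE i _ (hM i x)).1) (fun k l => hA1 (k, l) i)
      (hsf.of_le two_le_inf) (Or.inl (hsf.of_le three_le_inf)) h2 (hfM i)).mono ?_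
    rw [hCf, mul_assoc, Finset.sum_const, Finset.card_univ, Fintype.card_fin, nsmul_eq_mul]
    refine mul_le_mul_of_nonneg_left ?_ hC10.le
    nlinarith [mul_le_mul_of_nonneg_left hr1 (add_nonneg (zero_le_one.trans hG10) hM0)]
  have hf2 : ∀ k l x, |pderiv k (pderiv l (f i)) x| ≤ (K + Cf) * (h ^ β * h⁻¹) := fun k l x => by
    refine (pd_interp (Bs.contDiff_pd hsf l) ((hK i).2 l) h0 x k (Q := Cf * h⁻¹ * h ^ β)
      fun y hy => ((hf.2.2 k l).2 y x).trans (mul_le_mul_of_nonneg_left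
        (Real.rpow_le_rpow (norm_nonneg _) hy hβ.le) (by positivity))).trans_eq (by ring)
  generalize h ^ β * h⁻¹ = p at *
  generalize h⁻¹ = r at *
  have hp0 : 0 ≤ p := zero_le_one.trans hp1
  have hr0 : 0 ≤ r := zero_le_one.trans hr1
  have hx : ∀ x, ‖xi (f i) (z i) x‖ ≤ (D + (K + Cf)) * p := fun x => by
    have h2 : 0 ≤ (D + (K + Cf)) * p := by positivity
    refine norm_prod_le_iff.2 ⟨(pi_norm_le_iff_of_nonneg h2).2 fun k => ((hd k).1 x).trans ?_,
      (pi_norm_le_iff_of_nonneg h2).2 fun k => (pi_norm_le_iff_of_nonneg h2).2 fun l =>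
        (hf2 k l x).trans ?_⟩ <;>
    exact mul_le_mul_of_nonneg_right (by linarith) hp0
  have hxd : ∀ x y, ‖xi (f i) (z i) x - xi (f i) (z i) y‖ ≤ (D + Cf) * r * ‖x - y‖ ^ β :=
    fun x y => by
    have h3 : 0 ≤ ‖x - y‖ ^ β := Real.rpow_nonneg (norm_nonneg _) _
    have h2 : 0 ≤ (D + Cf) * r * ‖x - y‖ ^ β := by positivity
    refine norm_prod_le_iff.2 ⟨(pi_norm_le_iff_of_nonneg h2).2 fun k => ((hd k).2.2 x y).trans ?_,
      (pi_norm_le_iff_of_nonneg h2).2 fun k => (pi_norm_le_iff_of_nonneg h2).2 fun l =>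
        ((hf.2.2 k l).2 x y).trans ?_⟩ <;>
    exact mul_le_mul_of_nonneg_right (mul_le_mul_of_nonneg_right (by linarith) hr0) h3
  have hR : 1 + (D + (K + Cf)) * p ≤ T * p := by rw [hT]; linarith
  have hR0 : 0 ≤ 1 + (D + (K + Cf)) * p := by positivity
  have hR2 : (1 + (D + (K + Cf)) * p) ^ 2 ≤ T ^ 2 * (p * r) :=
    (pow_le_pow_left₀ hR0 hR 2).trans (by
      rw [mul_pow, sq p]
      exact mul_le_mul_of_nonneg_left (mul_le_mul_of_nonneg_left hpr hp0) (sq_nonneg T))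
  have hF : HB β (2 * (Pb * T ^ 2 * (p * r)) + Pd * (T ^ 2 * L + 2 * T * (D + Cf)) * (p * r))
      fun x => (S i).F2 (st (f i) (z i) x, xi (f i) (z i) x) := by
    refine hb_of_loc hβ.le (by positivity)
      (fun x => (hPb i (st (f i) (z i) x, xi (f i) (z i) x) (hM i x)).trans ?_)
      fun x y hxy => (hPd i (st (f i) (z i) x, xi (f i) (z i) x)
        (st (f i) (z i) y, xi (f i) (z i) y) _ (hM i x) (hM i y) (hx x) (hx y)).trans ?_
    · rw [mul_assoc]
      refine mul_le_mul_of_nonneg_left (le_trans ?_ hR2) hPb0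
      exact pow_le_pow_left₀ (by positivity) (add_le_add_right (hx x) 1) 2
    · have h3 : 0 ≤ ‖x - y‖ ^ β := Real.rpow_nonneg (norm_nonneg _) _
      have h4 := mul_le_mul hR2 (hL i x y hxy) (norm_nonneg _) (by positivity)
      have h5 := mul_le_mul hR (hxd x y) (norm_nonneg _) (by positivity)
      rw [mul_assoc Pd, mul_assoc Pd]
      refine mul_le_mul_of_nonneg_left ?_ hPd0
      simp only [Nat.cast_ofNat, Nat.add_one_sub_one, pow_one]
      linarith
  rw [← funext (hS i).e2] at hF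
  have hpr1 : 1 ≤ p * r := one_le_mul_of_one_le_of_one_le hp1 hr1
  refine ⟨hf.mono (mul_le_mul_of_nonneg_right (by linarith) hr0),
    (hC2 _ _ _ K (fun x => (hE i _ (hM i x)).2) (fun k l => hA2 (k, l) i)
      (hsz.of_le two_le_inf) (Or.inl (hsz.of_le three_le_inf)) hF (hK i).1.1).mono ?_⟩
  refine le_trans ?_ (mul_le_mul_of_nonneg_right (le_add_of_nonneg_left hCf0) (by positivity))
  rw [hCz, mul_assoc C2]
  refine mul_le_mul_of_nonneg_left ?_ hC20.le
  linarith [mul_le_mul_of_nonneg_left hpr1 hK0]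

/-- **R4** -/
theorem grad (hG : GSchStmt) : GradStmt := by
  intro n ι S f z hA hR β K hβ hβ1 hK
  obtain ⟨M, hM⟩ := hR.bdd
  obtain ⟨C, hC0, hC⟩ := grad_step (K := max K 0) hG hA hR.sol (M := max M 0)
    (fun i x => (hM i x).trans (le_max_left _ _)) hβ hβ1 (le_max_right _ _) (le_max_right _ _)
    fun i => ⟨R238.Boot.HB.mono (hK i).1 (le_max_left _ _),
      fun k => R238.Boot.HB.mono ((hK i).2 k) (le_max_left _ _)⟩
  obtain ⟨r0, hr0⟩ : ∃ r0 : ℝ, r0 = (C + 1) ^ β⁻¹ := ⟨_, rfl⟩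
  refine ⟨C * (r0 * r0), fun i => ?_⟩
  set P : Set ℝ := {N | 0 ≤ N ∧ ∀ k l, HB β N (pderiv k (pderiv l (z i)))} with hP
  have hne : P.Nonempty := by
    have hu : UC fun _ : Unit => z i :=
      UC.single (hR.sol i).sz fun k => (hR.fin i k).imp fun _ hB x => (hB x).2
    obtain ⟨N, hN1, hN⟩ := hb_common fun p : Fin n × Fin n =>
      (UC.u0 hβ hβ1.le (UB.pd (UB.pd hu p.2) p.1)).2
    exact ⟨N, zero_le_one.trans hN1, fun k l => hN (k, l) ()⟩
  have hm0 : 0 ≤ sInf P := le_csInf hne fun N hN => hN.1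
  obtain ⟨N, hN, hNm⟩ := exists_lt_of_csInf_lt hne (lt_add_one (sInf P))
  obtain ⟨r, hr⟩ : ∃ r, r = √(sInf P + 1) := ⟨_, rfl⟩
  have hrr : r * r = sInf P + 1 := by rw [hr]; exact Real.mul_self_sqrt (by linarith)
  have hr1 : 1 ≤ r := by rw [hr]; exact Real.one_le_sqrt.2 (by linarith)
  have hrp : 0 < r := zero_lt_one.trans_le hr1
  obtain ⟨h1, h2⟩ := hC i r⁻¹ (inv_pos.2 hrp) (inv_le_one_of_one_le₀ hr1) fun k l => by
    rw [inv_inv, hrr]
    exact R238.Boot.HB.mono (hN.2 k l) hNm.le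
  rw [inv_inv] at h1 h2
  have hq : 0 < r ^ β := Real.rpow_pos_of_pos hrp _
  have hq1 : 1 ≤ r ^ β := Real.one_le_rpow hr1 hβ.le
  have hq2 : r ^ β ≤ r * r :=
    (Real.rpow_le_self_of_one_le hr1 hβ1.le).trans (le_mul_of_one_le_left hrp.le hr1)
  rw [Real.inv_rpow hrp.le] at h2
  have h3 : sInf P ≤ C * ((r ^ β)⁻¹ * r * r) :=
    csInf_le ⟨0, fun N hN => hN.1⟩ ⟨by positivity, h2.2.2⟩
  have h4 : r ^ β ≤ C + 1 := by
    have h5 : r ^ β * (r * r - 1) ≤ C * (r * r) := by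
      rw [show r * r - 1 = sInf P by linarith]
      refine (mul_le_mul_of_nonneg_left h3 hq.le).trans_eq ?_
      field_simp
    exact le_of_mul_le_mul_right (by nlinarith) (mul_pos hrp hrp)
  have h5 : r ≤ r0 := by
    rw [hr0, ← Real.rpow_rpow_inv hrp.le hβ.ne']
    exact Real.rpow_le_rpow hq.le h4 (inv_nonneg.2 hβ.le)
  have h6 : r * r ≤ r0 * r0 := mul_self_le_mul_self hrp.le h5
  refine ⟨h1.mono (mul_le_mul_of_nonneg_left ?_ hC0), h2.mono (mul_le_mul_of_nonneg_left ?_ hC0)⟩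
  · exact (le_mul_of_one_le_left hrp.le hr1).trans h6
  · refine le_trans ?_ h6
    rw [mul_assoc]
    exact mul_le_of_le_one_left (by positivity) (inv_le_one_of_one_le₀ hq1)

end Crest.Agent.N346.An

end
end

-- ▼ part N346/Br/StrO
section

/-! Row 346, Br-3 (helper73): a small calculus of uniform bounds on families of real numbers. -/

set_option autoImplicit false

open Finset

namespace Crest.Agent.N346.Br.Str

variable {P : Type} {W u v : P → ℝ} {n : ℕ}

/-- `|u| ≤ C W` uniformly -/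
def O (W u : P → ℝ) : Prop := ∃ C, 0 ≤ C ∧ ∀ p, |u p| ≤ C * W p

/-- uniformly bounded -/
abbrev B (u : P → ℝ) : Prop := O (fun _ => 1) u

/-- uniformly positive -/
def Pos (u : P → ℝ) : Prop := ∃ c, 0 < c ∧ ∀ p, c ≤ u p

/-- `u ≥ c T - C` uniformly -/
def Low (T u : P → ℝ) : Prop := ∃ c, 0 < c ∧ ∃ C, 0 ≤ C ∧ ∀ p, c * T p - C ≤ u p

theorem B.of_le {C : ℝ} (h : ∀ p, |u p| ≤ C) : B u :=
  ⟨max C 0, le_max_right _ _, fun p => by simpa using Or.inl (h p)⟩

theorem B.bdd (h : B u) : ∃ C, 0 ≤ C ∧ ∀ p, |u p| ≤ C := by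
  obtain ⟨C, hC, h⟩ := h
  exact ⟨C, hC, fun p => by simpa using h p⟩

theorem B.const (c : ℝ) : B fun _ : P => c := B.of_le fun _ => le_rfl

theorem O.congr (h : O W u) (e : ∀ p, v p = u p) : O W v := by
  have : v = u := funext e
  rwa [this]

theorem O.add (h : O W u) (h' : O W v) : O W fun p => u p + v p := by
  obtain ⟨C, hC, h⟩ := h
  obtain ⟨C', hC', h'⟩ := h'
  exact ⟨C + C', by positivity, fun p => (abs_add_le _ _).trans (by linarith [h p, h' p])⟩

theorem O.neg (h : O W u) : O W fun p => -u p := by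
  obtain ⟨C, hC, h⟩ := h
  exact ⟨C, hC, fun p => by simpa using h p⟩

theorem O.sub (h : O W u) (h' : O W v) : O W fun p => u p - v p :=
  (h.add h'.neg).congr fun _ => sub_eq_add_neg _ _

theorem O.bmul (h : B u) (h' : O W v) : O W fun p => u p * v p := by
  obtain ⟨C, hC, h⟩ := h.bdd
  obtain ⟨C', hC', h'⟩ := h'
  refine ⟨C * C', by positivity, fun p => ?_⟩
  rw [abs_mul, mul_assoc]
  exact mul_le_mul (h p) (h' p) (abs_nonneg _) hC

theorem O.mulb (h : O W u) (h' : B v) : O W fun p => u p * v p :=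
  (O.bmul h' h).congr fun _ => mul_comm _ _

theorem O.cmul (c : ℝ) (h : O W u) : O W fun p => c * u p := O.bmul (B.const c) h

theorem B.sq (h : B u) : B fun p => u p ^ 2 := (O.bmul h h).congr fun _ => pow_two _

theorem O.sum {α : Type*} (s : Finset α) {w : α → P → ℝ} (h : ∀ a, O W (w a)) :
    O W fun p => ∑ a ∈ s, w a p := by
  classical
  induction s using Finset.induction_on with
  | empty => exact ⟨0, le_rfl, fun p => by simp⟩
  | insert a s ha ih => exact ((h a).add ih).congr fun p => sum_insert ha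

theorem O.sum2 {w : Fin n → Fin n → P → ℝ} (h : ∀ i j, O W (w i j)) :
    O W fun p => ∑ i, ∑ j, w i j p := O.sum _ fun i => O.sum _ fun j => h i j

theorem O.mono {W' : P → ℝ} (h : O W u) (hW : ∀ p, W p ≤ W' p) : O W' u := by
  obtain ⟨C, hC, h⟩ := h
  exact ⟨C, hC, fun p => (h p).trans (mul_le_mul_of_nonneg_left (hW p) hC)⟩

theorem Pos.pos (h : Pos u) (p : P) : 0 < u p := by
  obtain ⟨c, hc, h⟩ := h
  exact hc.trans_le (h p)

theorem Pos.inv (h : Pos u) : B fun p => (u p)⁻¹ := by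
  obtain ⟨c, hc, h⟩ := h
  refine B.of_le (C := c⁻¹) fun p => ?_
  rw [abs_of_pos (inv_pos.2 (hc.trans_le (h p)))]
  exact inv_anti₀ hc (h p)

theorem O.div (h : O W u) (h' : Pos v) : O W fun p => u p / v p :=
  (h.mulb h'.inv).congr fun _ => div_eq_mul_inv _ _

theorem Pos.mul (h : Pos u) (h' : Pos v) : Pos fun p => u p * v p := by
  obtain ⟨c, hc, h⟩ := h
  obtain ⟨c', hc', h'⟩ := h'
  exact ⟨c * c', by positivity, fun p => mul_le_mul (h p) (h' p) hc'.le (hc.le.trans (h p))⟩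

theorem B.exp (h : B u) : B fun p => Real.exp (u p) := by
  obtain ⟨C, -, h⟩ := h.bdd
  refine B.of_le (C := Real.exp C) fun p => ?_
  rw [abs_of_pos (Real.exp_pos _)]
  exact Real.exp_le_exp.2 (le_of_abs_le (h p))

theorem B.exp_pos (h : B u) : Pos fun p => Real.exp (u p) := by
  obtain ⟨C, -, h⟩ := h.bdd
  exact ⟨Real.exp (-C), Real.exp_pos _, fun p => Real.exp_le_exp.2 (neg_le_of_abs_le (h p))⟩

theorem B.sqrt (h : B u) : B fun p => √(u p) := by
  obtain ⟨C, -, h⟩ := h.bdd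
  refine B.of_le (C := √C) fun p => ?_
  rw [abs_of_nonneg (Real.sqrt_nonneg _)]
  exact Real.sqrt_le_sqrt (le_of_abs_le (h p))

theorem Pos.sqrt (h : Pos u) : Pos fun p => √(u p) := by
  obtain ⟨c, hc, h⟩ := h
  exact ⟨√c, Real.sqrt_pos.2 hc, fun p => Real.sqrt_le_sqrt (h p)⟩

/-! ### the weight `1 + √G` -/

variable {G T T' : P → ℝ}

theorem B.toD (h : B u) : O (fun p => 1 + √(G p)) u :=
  h.mono fun _ => le_add_of_nonneg_right (Real.sqrt_nonneg _)

theorem O.sqD (hG : ∀ p, 0 ≤ G p) (h : O (fun p => 1 + √(G p)) u) :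
    O (fun p => 1 + G p) fun p => u p ^ 2 := by
  obtain ⟨C, hC, h⟩ := h
  refine ⟨2 * C ^ 2, by positivity, fun p => ?_⟩
  have h1 := h p
  have h2 : |u p| ^ 2 ≤ (C * (1 + √(G p))) ^ 2 := pow_le_pow_left₀ (abs_nonneg _) h1 2
  have h3 := Real.sq_sqrt (hG p)
  rw [abs_pow]
  refine h2.trans ?_
  rw [mul_pow]
  have : (1 + √(G p)) ^ 2 ≤ 2 * (1 + G p) := by nlinarith [sq_nonneg (1 - √(G p))]
  nlinarith [sq_nonneg C]

/-- mixed terms -/
theorem mix (hG : ∀ p, 0 ≤ G p) {w : Fin n → Fin n → P → ℝ}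
    (h : ∀ i j, O (fun p => 1 + √(G p)) (w i j)) {ε : ℝ} (hε : 0 < ε) :
    ∃ C, 0 ≤ C ∧ ∀ p (M : Fin n → Fin n → ℝ),
      |∑ i, ∑ j, M i j * w i j p| ≤ ε * (∑ i, ∑ j, M i j ^ 2) + C * (1 + G p) := by
  obtain ⟨C, hC, h'⟩ := O.sum2 fun i j => (h i j).sqD hG
  refine ⟨C / ε, by positivity, fun p M => ?_⟩
  have h1 : |∑ i, ∑ j, M i j * w i j p| ≤ ∑ i, ∑ j, (ε * M i j ^ 2 + w i j p ^ 2 / ε) := by
    refine (abs_sum_le_sum_abs _ _).trans (sum_le_sum fun i _ => ?_)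
    refine (abs_sum_le_sum_abs _ _).trans (sum_le_sum fun j _ => ?_)
    have e : w i j p ^ 2 / ε = ε * (w i j p / ε) ^ 2 := by field_simp
    have e2 : M i j * w i j p = ε * (M i j * (w i j p / ε)) := by field_simp
    rw [e, e2, abs_mul, abs_of_pos hε, ← mul_add]
    refine mul_le_mul_of_nonneg_left (abs_le.2 ⟨?_, ?_⟩) hε.le
    · nlinarith [sq_nonneg (M i j + w i j p / ε), sq_nonneg (M i j), sq_nonneg (w i j p / ε)]
    · nlinarith [sq_nonneg (M i j - w i j p / ε), sq_nonneg (M i j), sq_nonneg (w i j p / ε)]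
  refine h1.trans ?_
  simp only [sum_add_distrib, ← mul_sum, ← sum_div]
  have h2 := le_of_abs_le (h' p)
  have : (∑ i, ∑ j, w i j p ^ 2) / ε ≤ C / ε * (1 + G p) := by
    rw [div_mul_eq_mul_div]; exact div_le_div_of_nonneg_right h2 hε.le
  linarith

theorem Low.of_le (h : Low T u) (e : ∀ p, u p ≤ v p) : Low T v := by
  obtain ⟨c, hc, C, hC, h⟩ := h
  exact ⟨c, hc, C, hC, fun p => (h p).trans (e p)⟩

/-- absorption of a term of linear growth -/
theorem Low.add (hG : ∀ p, 0 ≤ G p) (hT : ∀ p, G p ≤ T p) (h : Low T u)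
    (h' : O (fun p => 1 + √(G p)) v) : Low T fun p => u p + v p := by
  obtain ⟨c, hc, C, hC, h⟩ := h
  obtain ⟨C', hC', h'⟩ := h'
  refine ⟨c / 2, by positivity, C + C' + C' ^ 2 / c, by positivity, fun p => ?_⟩
  have h1 := neg_le_of_abs_le (h' p)
  have h3 := Real.sq_sqrt (hG p)
  have h4 : C' * √(G p) ≤ c / 2 * G p + C' ^ 2 / c := by
    have e : C' ^ 2 / c = c * (C' / c) ^ 2 := by field_simp
    have e2 : C' * √(G p) = c * (C' / c * √(G p)) := by field_simp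
    rw [e, e2]
    nlinarith [mul_nonneg hc.le (sq_nonneg (√(G p) - C' / c)), mul_nonneg hc.le (sq_nonneg (C' / c))]
  have h5 := mul_le_mul_of_nonneg_left (hT p) (half_pos hc).le
  have := h p
  simp only at h1 ⊢
  linarith

theorem Low.mul (hT : ∀ p, 0 ≤ T p) (h : Low T u) (hv : B v) (hp : Pos v) :
    Low T fun p => v p * u p := by
  obtain ⟨c, hc, C, hC, h⟩ := h
  obtain ⟨C', hC', hv⟩ := hv.bdd
  obtain ⟨c', hc', hp⟩ := hp
  refine ⟨c' * c, by positivity, C' * C, by positivity, fun p => ?_⟩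
  have h1 := mul_le_mul_of_nonneg_left (h p) (hc'.le.trans (hp p))
  have h2 := mul_le_mul_of_nonneg_right (hp p) (mul_nonneg hc.le (hT p))
  have h3 := mul_le_mul_of_nonneg_right (le_of_abs_le (hv p)) hC
  simp only
  nlinarith

theorem Low.trans (h : Low T u) (h' : ∃ C, 0 < C ∧ ∀ p, T' p ≤ C * (1 + T p)) : Low T' u := by
  obtain ⟨c, hc, C, hC, h⟩ := h
  obtain ⟨C', hC', h'⟩ := h'
  refine ⟨c / C', by positivity, C + c, by positivity, fun p => ?_⟩
  have h1 : c / C' * T' p ≤ c * (1 + T p) := by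
    rw [div_mul_eq_mul_div, div_le_iff₀ hC']
    nlinarith [mul_le_mul_of_nonneg_left (h' p) hc.le]
  linarith [h p]

/-- the Hessian in terms of a tensor -/
theorem sq_le_of (hG : ∀ p, 0 ≤ G p) {F M r : Fin n → Fin n → P → ℝ} (hu : B u)
    (hr : ∀ i j, O (fun p => 1 + √(G p)) (r i j)) (e : ∀ i j p, F i j p = u p * M i j p + r i j p) :
    ∃ C, 0 < C ∧ ∀ p, (∑ i, ∑ j, F i j p ^ 2) + G p ≤ C * (1 + ((∑ i, ∑ j, M i j p ^ 2) + G p)) := by
  obtain ⟨C, hC, h⟩ := O.sum2 fun i j => (hr i j).sqD hG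
  obtain ⟨C', hC', h'⟩ := hu.sq.bdd
  refine ⟨2 * C + 2 * C' + 1, by positivity, fun p => ?_⟩
  have h1 : ∑ i, ∑ j, F i j p ^ 2 ≤ ∑ i, ∑ j, (2 * C' * M i j p ^ 2 + 2 * r i j p ^ 2) := by
    refine sum_le_sum fun i _ => sum_le_sum fun j _ => ?_
    have := mul_le_mul_of_nonneg_right (le_of_abs_le (h' p)) (sq_nonneg (M i j p))
    rw [e]
    nlinarith [sq_nonneg (u p * M i j p - r i j p)]
  simp only [sum_add_distrib, ← mul_sum] at h1
  have h2 := le_of_abs_le (h p)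
  have h3 : 0 ≤ ∑ i, ∑ j, M i j p ^ 2 := sum_nonneg fun i _ => sum_nonneg fun j _ => sq_nonneg _
  have := hG p
  simp only at h2
  nlinarith [mul_nonneg hC h3, mul_nonneg hC' this]

/-! ### matrices -/

open Bs Matrix

/-- ellipticity on two-tensors -/
theorem tensor_lower {A : Matrix (Fin n) (Fin n) ℝ} (hA : A.PosDef) {c : ℝ} (hc : 0 ≤ c)
    (h : ∀ v, c * ∑ i, v i * v i ≤ qb A v v) (M : Matrix (Fin n) (Fin n) ℝ) :
    c ^ 2 * ∑ i, ∑ j, M i j ^ 2 ≤ ∑ i, ∑ j, ∑ a, ∑ b, A i a * A j b * M i j * M a b := by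
  obtain ⟨S, -, -, hS, -⟩ := simul_diag hA (posDef_symm hA)
  have e : ∀ i a, A i a = ∑ m, S m i * S m a := fun i a => by
    conv_lhs => rw [hS]
    simp [Matrix.mul_apply]
  have h1 : ∑ i, ∑ j, ∑ a, ∑ b, A i a * A j b * M i j * M a b
      = ∑ m, qb A (fun j => ∑ i, S m i * M i j) (fun j => ∑ i, S m i * M i j) := by
    simp only [qb, mul_sum, sum_mul]
    have : ∀ i j a b, A i a * A j b * M i j * M a b
        = ∑ m, A j b * (S m i * M i j) * (S m a * M a b) := fun i j a b => by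
      rw [e i a, sum_mul, sum_mul, sum_mul]
      exact sum_congr rfl fun m _ => by ring
    simp only [this]
    calc ∑ i, ∑ j, ∑ a, ∑ b, ∑ m, A j b * (S m i * M i j) * (S m a * M a b)
        = ∑ x : Fin n × Fin n × Fin n × Fin n × Fin n,
            A x.2.1 x.2.2.2.1 * (S x.2.2.2.2 x.1 * M x.1 x.2.1) * (S x.2.2.2.2 x.2.2.1 * M x.2.2.1 x.2.2.2.1) := by
          simp only [Fintype.sum_prod_type]
      _ = ∑ x : Fin n × Fin n × Fin n × Fin n × Fin n,
            A x.2.1 x.2.2.1 * (S x.1 x.2.2.2.2 * M x.2.2.2.2 x.2.1) * (S x.1 x.2.2.2.1 * M x.2.2.2.1 x.2.2.1) :=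
          Fintype.sum_equiv
            ⟨fun x => (x.2.2.2.2, x.2.1, x.2.2.2.1, x.2.2.1, x.1),
              fun x => (x.2.2.2.2, x.2.1, x.2.2.2.1, x.2.2.1, x.1), fun _ => rfl, fun _ => rfl⟩
            _ _ fun _ => rfl
      _ = _ := by simp only [Fintype.sum_prod_type]
  have h2 : ∑ m, ∑ j, (∑ i, S m i * M i j) * (∑ i, S m i * M i j)
      = ∑ j, qb A (fun i => M i j) (fun i => M i j) := by
    rw [sum_comm]
    refine sum_congr rfl fun j _ => ?_
    simp only [qb, e, sum_mul, mul_sum]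
    rw [sum_comm]
    refine sum_congr rfl fun i _ => ?_
    rw [sum_comm]
    exact sum_congr rfl fun a _ => sum_congr rfl fun m _ => by ring
  have h3 : c * ∑ i, ∑ j, M i j ^ 2 ≤ ∑ j, qb A (fun i => M i j) (fun i => M i j) := by
    rw [sum_comm, mul_sum]
    exact sum_le_sum fun j _ => by simpa only [sq] using h fun i => M i j
  rw [h1, sq, mul_assoc]
  refine (mul_le_mul_of_nonneg_left (h3.trans h2.ge) hc).trans ?_
  rw [mul_sum]
  exact sum_le_sum fun m _ => h _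


end Crest.Agent.N346.Br.Str
end

-- ▼ part N346/Br/StrG
section

/-! Row 346, Br-3 (helper73): the two vector fields of the regularity theorem, exact formulas. -/

set_option autoImplicit false

open scoped ContDiff Topology
open Filter Set
open Crest.GeometryTopology.CoordMetric Crest.MathPhysics.ExteriorData
open Crest.Agent.R202.Tens Crest.Agent.R247.Bo84 Crest.Agent.N346.Id

noncomputable section

namespace Crest.Agent.N346.Br.Str

variable {n : ℕ} {g K : MetricField n} {φ f z : E n → ℝ} {x : E n}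

local notation "ḡ" => gb g φ f
local notation "𝓌" => wv g φ f
local notation "𝒽" => hh g φ f
local notation "γ" => gm g φ f
local notation "𝓅" => pp g φ f
local notation "𝒶" => aa g φ f
local notation "𝒱" => Vv g φ f
local notation "𝒬" => Qv g φ f
local notation "𝔓" => Pv g φ f
local notation "ℋ" => H0 g φ f
local notation "𝒵" => ZZ g φ f K
local notation "Θ" => Th g φ f K
local notation "𝓆" => qv g φ f K

/-- a vector density -/
def dens (G : MetricField n) (V : E n → E n) : VectorField n := fun y k => √(G y).det * V y k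

theorem divE_dens {G : MetricField n} (hG : IsRiemannianOn G univ) (V : E n → E n) (x : E n) :
    divE (dens G V) x = √(G x).det * divg G V x := by
  have := Real.sqrt_pos.2 (det_pos hG (mem_univ x))
  simp only [divE, dens, divg]
  field_simp

theorem contDiff_dens {G : MetricField n} (hG : IsRiemannianOn G univ) {V : E n → E n}
    (hV : ∀ x, ContDiffAt ℝ ∞ V x) (k : Fin n) : ContDiff ℝ 1 fun y => dens G V y k := by
  refine contDiff_iff_contDiffAt.2 fun x => ContDiffAt.of_le ?_ (show (1 : WithTop ℕ∞) ≤ ∞ by simp)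
  exact (contDiffAt_sqrt_det hG (mem_univ x)).mul
    ((EuclideanSpace.proj k : E n →L[ℝ] ℝ).contDiff.contDiffAt.comp x (hV x))

section
variable (g φ f K z)

def vE (α : ℝ) : E n → E n := fun y =>
  Real.exp (α * z y) • ((2 : ℝ) • (φ y • 𝓆 y) + (2 * φ y) • grad ḡ z y)

def vG (l : ℝ) : E n → E n := fun y =>
  Real.exp (-(l * z y)) • ((2 : ℝ) • grad ḡ z y + (2 : ℝ) • 𝔓 y)

end

theorem c_gradz (hd : Jd g φ f univ) (hz : ContDiff ℝ ∞ z) (x : E n) :
    ContDiffAt ℝ ∞ (grad ḡ z) x :=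
  contDiffAt_grad hd.riemb (mem_univ x) hz.contDiffAt (by simp) le_rfl

theorem c_vE (hd : Jd g φ f univ) (hK : SymT K univ) (hz : ContDiff ℝ ∞ z) (α : ℝ) (x : E n) :
    ContDiffAt ℝ ∞ (vE g K φ f z α) x :=
  ((contDiffAt_const.mul hz.contDiffAt).exp).smul
    ((((hd.cφ (mem_univ x)).smul (hd.c_qv hK (mem_univ x))).const_smul _).add
      ((contDiffAt_const.mul (hd.cφ (mem_univ x))).smul (c_gradz hd hz x)))

theorem c_vG (hd : Jd g φ f univ) (hz : ContDiff ℝ ∞ z) (l : ℝ) (x : E n) :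
    ContDiffAt ℝ ∞ (vG g φ f z l) x :=
  ((contDiffAt_const.mul hz.contDiffAt).neg.exp).smul
    (((c_gradz hd hz x).const_smul _).add ((hd.c_Pv (mem_univ x)).const_smul _))

theorem divg_const_smul {G : MetricField n} (hG : IsRiemannianOn G univ) (c : ℝ) {V : E n → E n}
    (hV : DifferentiableAt ℝ V x) : divg G (fun y => c • V y) x = c * divg G V x := by
  rw [divg_smul (h := fun _ => c) hG (mem_univ x) (differentiableAt_const c) hV]
  simp

theorem fderiv_exp_mul (hz : ContDiff ℝ ∞ z) (c : ℝ) (x Y : E n) :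
    fderiv ℝ (fun y => Real.exp (c * z y)) x Y = Real.exp (c * z x) * (c * fderiv ℝ z x Y) := by
  have h := ((hz.differentiable (by simp) x).hasFDerivAt.const_mul c).exp
  rw [h.fderiv]
  simp

/-- the divergence of the first field -/
theorem divg_vE (hd : Jd g φ f univ) (hK : SymT K univ) (hz : ContDiff ℝ ∞ z) {α τ Gs : ℝ}
    (hj : ∀ y, Θ y = τ * f y)
    (hc : 2 * laplaceBeltrami ḡ z x + α * gam ḡ z z x = scalarCurv ḡ x + Gs) :
    divg ḡ (vE g K φ f z α) x = φ x * Real.exp (α * z x) *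
      (normSqK ḡ 𝒵 x + (2 * bil (ḡ x) (𝓆 x) (𝓆 x) + 2 * α * fderiv ℝ z x (𝓆 x) + α * gam ḡ z z x)
        + 2 * (gam ḡ φ z x / φ x)
        + (2 * (energyDensity g K x - Jw g K x (𝓌 x)) + (τ * f x) ^ 2
          + 2 * (τ * f x) * traceK g K x + 2 * (τ * fderiv ℝ f x (𝓌 x)) + Gs)) := by
  have hx := mem_univ x
  have hφ := hd.φ_pos x hx
  have d1 : DifferentiableAt ℝ (fun y => φ y • 𝓆 y) x :=
    ((hd.cφ hx).smul (hd.c_qv hK hx)).differentiableAt (by simp)
  have d2 : DifferentiableAt ℝ (grad ḡ z) x := (c_gradz hd hz x).differentiableAt (by simp)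
  have d3 : DifferentiableAt ℝ (fun y => 2 * φ y) x := (hd.dφ hx).const_mul 2
  have d4 : DifferentiableAt ℝ (fun y => Real.exp (α * z y)) x :=
    ((hz.differentiable (by simp) x).const_mul α).exp
  have eΘ : fderiv ℝ Θ x (𝓌 x) = τ * fderiv ℝ f x (𝓌 x) := by
    rw [show Θ = fun y => τ * f y from funext hj,
      fderiv_const_mul ((hd.cf hx).differentiableAt (by simp))]
    simp
  have hE := hd.id_E hK hx
  rw [eΘ, hj] at hE
  unfold vE
  rw [divg_smul hd.riemb hx d4 ((d1.fun_const_smul _).fun_add (d3.fun_smul d2)),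
    divg_add hd.riemb hx (d1.fun_const_smul _) (d3.fun_smul d2), divg_const_smul hd.riemb 2 d1,
    divg_smul hd.riemb hx d3 d2, divg_grad, fderiv_exp_mul hz,
    fderiv_const_mul (hd.dφ hx)]
  simp only [map_add, map_smul, smul_eq_mul, smul_apply]
  rw [← gam_eq_fderiv_grad, ← gam_eq_fderiv_grad]
  have e1 : divg ḡ (fun y => φ y • 𝓆 y) x = φ x * (divg ḡ (fun y => φ y • 𝓆 y) x / φ x) := by
    field_simp
  have e2 : gam ḡ φ z x = φ x * (gam ḡ φ z x / φ x) := by field_simp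
  rw [e1]
  set A := divg ḡ (fun y => φ y • 𝓆 y) x / φ x
  set C := gam ḡ φ z x / φ x
  rw [e2]
  linear_combination (φ x * Real.exp (α * z x)) * hc + (φ x * Real.exp (α * z x)) * hE

/-- completing the square -/
theorem square_le (hd : Jd g φ f univ) (α : ℝ) (q : E n) :
    (α - α ^ 2 / 2) * gam ḡ z z x
      ≤ 2 * bil (ḡ x) q q + 2 * α * fderiv ℝ z x q + α * gam ḡ z z x := by
  have hx := mem_univ x
  have h := bil_self_nonneg hd.riemb hx (q + (α / 2) • grad ḡ z x)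
  simp only [map_add, map_smul, add_apply, smul_apply,
    smul_eq_mul] at h
  rw [bil_symm hd.riemb hx q (grad ḡ z x), ← gam_eq_bil hd.riemb hx, bil_grad hd.riemb hx] at h
  linarith

/-- the divergence of the second field -/
theorem divg_vG (hd : Jd g φ f univ) (hz : ContDiff ℝ ∞ z) {α Gs : ℝ} (l : ℝ)
    (hc : 2 * laplaceBeltrami ḡ z x + α * gam ḡ z z x = scalarCurv ḡ x + Gs) :
    -divg ḡ (vG g φ f z l) x = Real.exp (-(l * z x)) *
      (normSqK ḡ 𝒽 x - 2 * (1 - 𝓅 x) * bil (𝒽 x) (𝓌 x) (𝒱 x) + 2 * l * gam ḡ z z x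
        + α * gam ḡ z z x + 2 * l * fderiv ℝ z x (𝔓 x)
        + (2 * (1 - 𝓅 x) * ℋ x * 𝒶 x
          - (Gs + scalarCurv g x - 2 * bil (ricM g x) (𝓌 x) (𝓌 x) + ℋ x ^ 2))) := by
  have hx := mem_univ x
  have d1 : DifferentiableAt ℝ 𝔓 x := (hd.c_Pv hx).differentiableAt (by simp)
  have d2 : DifferentiableAt ℝ (grad ḡ z) x := (c_gradz hd hz x).differentiableAt (by simp)
  have e : (fun y => Real.exp (-(l * z y))) = fun y => Real.exp (-l * z y) := by
    simp only [neg_mul]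
  have d4 : DifferentiableAt ℝ (fun y => Real.exp (-(l * z y))) x :=
    ((hz.differentiable (by simp) x).const_mul l).neg.exp
  have hG := hd.id_GD hx
  rw [hd.gb_Qv hx] at hG
  unfold vG
  rw [divg_smul hd.riemb hx d4 ((d2.fun_const_smul _).fun_add (d1.fun_const_smul _)),
    divg_add hd.riemb hx (d2.fun_const_smul _) (d1.fun_const_smul _), divg_const_smul hd.riemb 2 d1,
    divg_const_smul hd.riemb 2 d2, divg_grad, e, fderiv_exp_mul hz]
  simp only [map_add, map_smul, smul_eq_mul, neg_mul]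
  rw [← gam_eq_fderiv_grad]
  linear_combination (-Real.exp (-(l * z x))) * hc - Real.exp (-(l * z x)) * hG

theorem pderiv_lv (hd : Jd g φ f univ) (j : Fin n) : pderiv j (lv φ) x = pderiv j φ x / φ x :=
  hd.fderiv_lv (mem_univ x) _

theorem fderiv_eq_sum (u : E n → ℝ) (x Y : E n) : fderiv ℝ u x Y = ∑ i, Y i * pderiv i u x :=
  clm_eq_sum _ _

/-- `dz (P)` -/
theorem dz_Pv (hd : Jd g φ f univ) {t : Fin n → ℝ} {s : ℝ} (hs : 0 ≤ s)
    (hφ : ∀ i, pderiv i φ x = t i + s * pderiv i z x) :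
    ∑ i, ∑ j, (𝓅 x * inverseField g x i j - 𝓌 x i * 𝓌 x j) * (t j / φ x) * pderiv i z x
      ≤ fderiv ℝ z x (𝔓 x) := by
  have hx := mem_univ x
  have hp := hd.φ_pos x hx
  have h1 : fderiv ℝ z x (𝓌 x) ^ 2 ≤ 𝓅 x * gam g z z x := by
    have := bil_sq_le hd.riem hx (grad g z x) (𝓌 x)
    rwa [bil_grad hd.riem hx, ← gam_eq_bil hd.riem hx, hd.bil_wv_wv hx, mul_comm] at this
  have h2 : fderiv ℝ z x (𝔓 x) =
      ∑ i, ∑ j, (𝓅 x * inverseField g x i j - 𝓌 x i * 𝓌 x j) * (t j / φ x) * pderiv i z x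
      + s / φ x * (𝓅 x * gam g z z x - fderiv ℝ z x (𝓌 x) ^ 2) := by
    have e1 : ∀ j, pderiv j (lv φ) x = t j / φ x + s / φ x * pderiv j z x := fun j => by
      rw [pderiv_lv hd, hφ]; ring
    have e2 : gam g z (lv φ) x = ∑ i, ∑ j, inverseField g x i j * (t j / φ x) * pderiv i z x
        + s / φ x * gam g z z x := by
      simp only [gam, e1, Finset.mul_sum, ← Finset.sum_add_distrib]
      exact Finset.sum_congr rfl fun i _ => Finset.sum_congr rfl fun j _ => by ring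
    have e3 : 𝒶 x = ∑ j, 𝓌 x j * (t j / φ x) + s / φ x * fderiv ℝ z x (𝓌 x) := by
      simp only [aa, fderiv_eq_sum, e1, Finset.mul_sum, ← Finset.sum_add_distrib]
      exact Finset.sum_congr rfl fun i _ => by ring
    have e4 : ∑ i, ∑ j, (𝓅 x * inverseField g x i j - 𝓌 x i * 𝓌 x j) * (t j / φ x) * pderiv i z x
        = 𝓅 x * ∑ i, ∑ j, inverseField g x i j * (t j / φ x) * pderiv i z x
          - fderiv ℝ z x (𝓌 x) * ∑ j, 𝓌 x j * (t j / φ x) := by
      rw [fderiv_eq_sum, Finset.sum_mul_sum]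
      simp only [Finset.mul_sum, ← Finset.sum_sub_distrib]
      exact Finset.sum_congr rfl fun i _ => Finset.sum_congr rfl fun j _ => by ring
    rw [Pv, map_sub, map_smul, map_smul, ← gam_eq_fderiv_grad, e2, e3, e4, smul_eq_mul, smul_eq_mul]
    ring
  rw [h2]
  exact le_add_of_nonneg_right (mul_nonneg (div_nonneg hs hp.le) (sub_nonneg.2 h1))

/-- `⟨dφ, dz⟩` -/
theorem gam_φ (hd : Jd g φ f univ) {t : Fin n → ℝ} {s : ℝ} (hs : 0 ≤ s)
    (hφ : ∀ i, pderiv i φ x = t i + s * pderiv i z x) :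
    ∑ i, ∑ j, inverseField ḡ x i j * t i * pderiv j z x ≤ gam ḡ φ z x := by
  have h2 : gam ḡ φ z x = ∑ i, ∑ j, inverseField ḡ x i j * t i * pderiv j z x
      + s * gam ḡ z z x := by
    simp only [gam, hφ, Finset.mul_sum, ← Finset.sum_add_distrib]
    exact Finset.sum_congr rfl fun i _ => Finset.sum_congr rfl fun j _ => by ring
  rw [h2]
  exact le_add_of_nonneg_right (mul_nonneg hs (gam_self_nonneg hd.riemb (mem_univ x) z))

/-- the Hessian of `f` -/
theorem hess_f (hd : Jd g φ f univ) (i j : Fin n) :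
    pderiv i (pderiv j f) x = γ x / φ x * 𝒽 x i j
      + (∑ k, christoffel g x k i j * pderiv k f x
        - (pderiv i φ x * pderiv j f x + pderiv j φ x * pderiv i f x) / φ x) := by
  have hx := mem_univ x
  have := hd.φ_pos x hx
  have := hd.gm_pos hx
  simp only [hh, Matrix.of_apply, hessM_apply g (hd.cf2 hx)]
  field_simp
  ring

theorem sum_vG (l : ℝ) :
    ∑ k, dens ḡ (vG g φ f z l) x k * pderiv k z x =
      √(ḡ x).det * Real.exp (-(l * z x)) * (2 * gam ḡ z z x + 2 * fderiv ℝ z x (𝔓 x)) := by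
  have : ∑ k, dens ḡ (vG g φ f z l) x k * pderiv k z x
      = √(ḡ x).det * fderiv ℝ z x (vG g φ f z l x) := by
    simp only [fderiv_eq_sum, dens, Finset.mul_sum, mul_assoc]
  rw [this, vG]
  simp only [map_add, map_smul, smul_eq_mul]
  rw [← gam_eq_fderiv_grad]
  ring

theorem pderiv_comp (hd : Jd g φ f univ) (j k : Fin n) :
    pderiv j (fun y => 𝓌 y k) x = fderiv ℝ 𝓌 x (ee j) k := by
  have h := (EuclideanSpace.proj k : E n →L[ℝ] ℝ).hasFDerivAt.comp x
    ((hd.c_wv (mem_univ x)).differentiableAt (by simp)).hasFDerivAt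
  exact congrArg (fun L : E n →L[ℝ] ℝ => L (ee j)) h.fderiv

/-- the null Lagrangian structure of the difference -/
theorem vE_sub (hd : Jd g φ f univ) (α l : ℝ) (k : Fin n) :
    dens ḡ (vE g K φ f z α) x k
      - φ x * Real.exp (α * z x) * Real.exp (l * z x) * dens ḡ (vG g φ f z l) x k
      - ∑ j, (2 * (√(ḡ x).det * (φ x * Real.exp (α * z x))) * 𝓌 x j * pderiv j (fun y => 𝓌 y k) x
        - 2 * (√(ḡ x).det * (φ x * Real.exp (α * z x))) * 𝓌 x k * pderiv j (fun y => 𝓌 y j) x)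
    = 2 * (√(ḡ x).det * (φ x * Real.exp (α * z x))) *
      (∑ i, ∑ j, christoffel g x k i j * 𝓌 x i * 𝓌 x j
        - (∑ j, ∑ i, christoffel g x j j i * 𝓌 x i) * 𝓌 x k + ℋ x * 𝓌 x k
        - ∑ i, ∑ j, inverseField ḡ x k i * K x i j * 𝓌 x j) := by
  have hx := mem_univ x
  have h := congrArg (fun v : E n => v k) (hd.id_N0 hx)
  have hq := congrArg (fun v : E n => v k) (Jd.qv_eq (g := g) (φ := φ) (f := f) (K := K) (x := x))
  have e1 : fderiv ℝ 𝓌 x (𝓌 x) k = ∑ j, 𝓌 x j * pderiv j (fun y => 𝓌 y k) x := by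
    simp only [pderiv_comp hd]
    exact clm_eq_sum ((EuclideanSpace.proj k : E n →L[ℝ] ℝ).comp (fderiv ℝ 𝓌 x)) (𝓌 x)
  have e2 : divg g 𝓌 x = ∑ j, pderiv j (fun y => 𝓌 y j) x
      + ∑ j, ∑ i, christoffel g x j j i * 𝓌 x i := by
    rw [divg_eq_trL hd.riem hx ((hd.c_wv hx).differentiableAt (by simp)), trL_apply,
      ← Finset.sum_add_distrib]
    refine Finset.sum_congr rfl fun j _ => ?_
    rw [cov_apply, pderiv_comp hd, PiLp.add_apply, Gam_apply]
    simp [Finset.sum_ite_eq', PiLp.single_apply]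
  have e3 : tv ḡ K 𝓌 x k = ∑ i, ∑ j, inverseField ḡ x k i * K x i j * 𝓌 x j := by
    rw [tv, shp, mat_apply, Finset.sum_comm]
    simp only [Matrix.mul_apply, Finset.sum_mul, inverseField]
  have e4 : Real.exp (l * z x) * Real.exp (-(l * z x)) = 1 := by rw [← Real.exp_add]; simp
  simp only [cov_apply, PiLp.add_apply, PiLp.sub_apply, PiLp.smul_apply, smul_eq_mul, Gam_apply,
    e1, e2, e3] at h hq
  simp only [dens, vE, vG, PiLp.add_apply, PiLp.smul_apply, smul_eq_mul, Finset.sum_sub_distrib,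
    mul_assoc _ (𝓌 x _) (pderiv _ _ x), ← Finset.mul_sum]
  linear_combination (2 * (√(ḡ x).det * (φ x * Real.exp (α * z x)))) * (h + hq)
    - (φ x * Real.exp (α * z x) * √(ḡ x).det * (2 * grad ḡ z x k + 2 * 𝔓 x k)) * e4

end Crest.Agent.N346.Br.Str

end
end

-- ▼ part N346/Br/Eval
section

/-! Row 346, bridge: geometric quantities at `x` are state functions evaluated at the jet. -/

set_option autoImplicit false

open MeasureTheory Filter Topology Set
open scoped ContDiff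
open Crest.GeometryTopology.CoordMetric Crest.MathPhysics.ExteriorData
open Crest.Agent.R202.Tens Crest.Agent.R247.Bo84
open Crest.Agent.N346.Id hiding xi
open Crest.Agent.N346.An (Y0 Y1 Xi st xi UB UC N0 N1 Pol Adm en gsq aD2)
open Crest.Agent.N346.Bs

noncomputable section

namespace Crest.Agent.N346.Br

variable {n : ℕ} {f z : E n → ℝ} {Θ Φ : Z n → ℝ} {g : MetricField n}

/-- `Θ (x, f x, z x)` -/
def along (Θ : Z n → ℝ) (f z : E n → ℝ) : E n → ℝ := fun x => Θ (x, f x, z x)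

@[simp] lemma prj_st (f z : E n → ℝ) (x : E n) : prj (st f z x) = (x, f x, z x) := rfl

lemma contDiff_dX (h : ContDiff ℝ ∞ Θ) (j : Fin n) : ContDiff ℝ ∞ (dX j Θ) :=
  (h.fderiv_right (m := ∞) (by simp)).clm_apply contDiff_const

lemma contDiff_dF (h : ContDiff ℝ ∞ Θ) : ContDiff ℝ ∞ (dF Θ) :=
  (h.fderiv_right (m := ∞) (by simp)).clm_apply contDiff_const

lemma contDiff_dZ (h : ContDiff ℝ ∞ Θ) : ContDiff ℝ ∞ (dZ Θ) :=
  (h.fderiv_right (m := ∞) (by simp)).clm_apply contDiff_const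

lemma contDiff_along (h : ContDiff ℝ ∞ Θ) (hf : ContDiff ℝ ∞ f) (hz : ContDiff ℝ ∞ z) :
    ContDiff ℝ ∞ (along Θ f z) :=
  h.comp (contDiff_id.prodMk (hf.prodMk hz))

lemma pd_along (h : ContDiff ℝ ∞ Θ) (hf : ContDiff ℝ ∞ f) (hz : ContDiff ℝ ∞ z) (j : Fin n)
    (x : E n) : pderiv j (along Θ f z) x = tot Θ (st f z x, xi f z x) j := by
  have h1 : HasFDerivAt (fun y : E n => ((y, f y, z y) : Z n))
      ((ContinuousLinearMap.id ℝ (E n)).prod ((fderiv ℝ f x).prod (fderiv ℝ z x))) x :=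
    (hasFDerivAt_id x).prodMk ((hf.differentiable (by simp) x).hasFDerivAt.prodMk
      (hz.differentiable (by simp) x).hasFDerivAt)
  have h2 := ((h.differentiable (by simp) (x, f x, z x)).hasFDerivAt.comp x h1).fderiv
  have h3 : along Θ f z = Θ ∘ fun y : E n => ((y, f y, z y) : Z n) := rfl
  rw [pderiv, h3, h2]
  have e : (((ContinuousLinearMap.id ℝ (E n)).prod ((fderiv ℝ f x).prod (fderiv ℝ z x)))
      (EuclideanSpace.single j 1) : Z n) = (EuclideanSpace.single j 1, 0, 0)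
        + pderiv j f x • ((0, 1, 0) : Z n) + pderiv j z x • ((0, 0, 1) : Z n) := by
    simp [pderiv]
  rw [ContinuousLinearMap.comp_apply, e, map_add, map_add, map_smul, map_smul]
  simp only [tot, tot0, dX, dF, dZ, smul_eq_mul, st, xi]
  simp only [prj]
  ring

lemma pd2_along (h : ContDiff ℝ ∞ Θ) (hf : ContDiff ℝ ∞ f) (hz : ContDiff ℝ ∞ z) (i j : Fin n)
    (x : E n) : pderiv i (pderiv j (along Θ f z)) x
      = rest Θ (st f z x, xi f z x) i j + phz Θ (st f z x) * pderiv i (pderiv j z) x := by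
  have e : pderiv j (along Θ f z) = fun y => along (dX j Θ) f z y
      + along (dF Θ) f z y * pderiv j f y + along (dZ Θ) f z y * pderiv j z y := by
    funext y
    rw [pd_along h hf hz]; rfl
  have d1 := (contDiff_along (contDiff_dX h j) hf hz).differentiable (by simp) x
  have d2 := (contDiff_along (contDiff_dF h) hf hz).differentiable (by simp) x
  have d3 := (contDiff_along (contDiff_dZ h) hf hz).differentiable (by simp) x
  have d4 := (contDiff_pd hf j).differentiable (by simp) x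
  have d5 := (contDiff_pd hz j).differentiable (by simp) x
  rw [e, pd_add (d1.fun_add (d2.fun_mul d4)) (d3.fun_mul d5), pd_add d1 (d2.fun_mul d4), pd_mul d2 d4,
    pd_mul d3 d5, pd_along (contDiff_dX h j) hf hz, pd_along (contDiff_dF h) hf hz,
    pd_along (contDiff_dZ h) hf hz]
  simp only [rest, phz, along, st, xi, prj]
  ring

/-- the coordinate Hessian -/
lemma hessM_apply {u : E n → ℝ} {x : E n} (hu : ContDiffAt ℝ 2 u x) (i j : Fin n) :
    hessM g u x i j = pderiv i (pderiv j u) x - ∑ k, christoffel g x k i j * pderiv k u x := by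
  have h1 : DifferentiableAt ℝ (fderiv ℝ u) x :=
    (hu.fderiv_right (m := 1) (by norm_num)).differentiableAt one_ne_zero
  have h2 : pderiv i (pderiv j u) x = fderiv ℝ (fderiv ℝ u) x (EuclideanSpace.single i 1)
      (EuclideanSpace.single j 1) := by
    have : pderiv j u = fun y => fderiv ℝ u y (EuclideanSpace.single j 1) := rfl
    rw [pderiv, this, fderiv_clm_apply h1 (differentiableAt_const _)]
    simp
  rw [hessM, Matrix.of_apply, hess_apply, h2, R202.Tens.fderiv_eq_sum]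
  congr 1
  refine Finset.sum_congr rfl fun k _ => ?_
  congr 1
  rw [Gam_apply, Finset.sum_eq_single i, Finset.sum_eq_single j]
  · simp
  · intro b _ hb; simp [hb]
  · simp
  · intro b _ hb; simp [hb]
  · simp

section rfls
variable (g Φ f z) (x : E n)

lemma ph_st : ph Φ (st f z x) = along Φ f z x := rfl
lemma pp0_st : pp0 g Φ (st f z x) = pp g (along Φ f z) f x := rfl
lemma w0_st (i : Fin n) : w0 g Φ (st f z x) i = wv g (along Φ f z) f x i := rfl
lemma gbi_st : gbi g Φ (st f z x) = inverseField (gb g (along Φ f z) f) x := rfl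

end rfls

section
variable (hΦ : ContDiff ℝ ∞ Φ) (hf : ContDiff ℝ ∞ f) (hz : ContDiff ℝ ∞ z) (x : E n)
include hΦ hf hz

lemma hh1_st (i j : Fin n) :
    hh1 g Φ (st f z x, xi f z x) i j = hh g (along Φ f z) f x i j := by
  rw [hh, Matrix.of_apply, hessM_apply (hf.contDiffAt.of_le (by norm_cast)), pd_along hΦ hf hz,
    pd_along hΦ hf hz]
  rfl

lemma pd_lv (hp : ∀ q, 0 < Φ q) (j : Fin n) :
    pderiv j (lv (along Φ f z)) x = tot Φ (st f z x, xi f z x) j / ph Φ (st f z x) := by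
  have d := (contDiff_along hΦ hf hz).differentiable (by simp) x
  have := pd_comp (Real.hasDerivAt_log (hp (x, f x, z x)).ne') d j
  rw [pd_along hΦ hf hz] at this
  rw [div_eq_inv_mul]
  exact this

lemma aa1_st (hp : ∀ q, 0 < Φ q) :
    aa1 g Φ (st f z x, xi f z x) = aa g (along Φ f z) f x := by
  rw [aa, R202.Tens.fderiv_eq_sum, aa1, Finset.sum_div]
  refine Finset.sum_congr rfl fun j _ => ?_
  rw [pd_lv hΦ hf hz x hp, mul_div_assoc]
  rfl

lemma H01_st : H01 g Φ (st f z x, xi f z x) = H0 g (along Φ f z) f x := by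
  simp only [H01, hh1_st hΦ hf hz]
  rfl

lemma hx1_st (hp : ∀ q, 0 < Φ q) (i j : Fin n) : hx1 g Φ (st f z x, xi f z x) i j
    = (hh g (along Φ f z) f x + aa g (along Φ f z) f x • XX (along Φ f z) f x) i j := by
  rw [hx1, hh1_st hΦ hf hz, aa1_st hΦ hf hz x hp]
  rfl

end

/-- the standing hypotheses of the identities -/
lemma Bg.Reg.jd {b : Bg n} (hb : b.Reg) (hf : ContDiff ℝ ∞ f) (hz : ContDiff ℝ ∞ z) :
    Jd b.g (along b.Φ f z) f univ :=
  ⟨hb.riem, (contDiff_along hb.Φ_smooth hf hz).contDiffOn, hf.contDiffOn, fun _ _ => hb.Φ_pos _⟩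

lemma Bg.Reg.symT {b : Bg n} (hb : b.Reg) : SymT b.K univ :=
  ⟨fun i j => (hb.K_smooth i j).contDiffOn, fun x _ => hb.K_symm x⟩

lemma Bg.φ_eq (b : Bg n) (f z : E n → ℝ) : b.φ f z = along b.Φ f z := rfl

/-- the design system is the geometric system of its background -/
lemma gsys_bgOf (P : P1.Par) (c : P1.Coef n) (t : ℝ) (f z : E n → ℝ) :
    (bgOf P c t).GSys f z ↔ P1.Sys P c t f z :=
  ⟨fun h => ⟨h.1, h.2, h.3, h.4⟩, fun h => ⟨h.1, h.2, h.3, h.4⟩⟩

/-- equation (J) in triangular form, at a point -/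
lemma e1_iff {b : Bg n} (hb : b.Reg) (hf : ContDiff ℝ ∞ f) (hz : ContDiff ℝ ∞ z) (x : E n) :
    (aD2 (fun y => b.sys.a1 (st f z y)) f x
      = b.sys.c1 (st f z x) + ∑ i, b.sys.b1 (st f z x) i * pderiv i z x)
    ↔ Th b.g (b.φ f z) f b.K x = b.τ * f x := by
  have hd := hb.jd hf hz
  have hφ : 0 < ph b.Φ (st f z x) := hb.Φ_pos _
  have hγ : 0 < gm0 b.g b.Φ (st f z x) := hd.gm_pos (mem_univ x)
  rw [Bg.φ_eq, Jd.Th_eq, ← H01_st hb.Φ_smooth hf hz]
  set y := st f z x with hy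
  set G := gbi b.g b.Φ y with hG
  have hK : traceK (gb b.g (along b.Φ f z) f) b.K x = ∑ i, ∑ j, G i j * b.K x i j := rfl
  set D := ∑ i, ∑ j, G i j * pderiv i (pderiv j f) x with hD
  set A := ∑ i, ∑ j, G i j * Gp b.g y i j with hA
  set T := ∑ i, ∑ j, G i j * (tot0 b.Φ y i * y.2.2.2 j + tot0 b.Φ y j * y.2.2.2 i) with hT
  set S := ∑ k, (∑ j, (G k j + G j k) * y.2.2.2 j) * pderiv k z x with hS
  have h1 : H01 b.g b.Φ (y, xi f z x) = (ph b.Φ y * (D - A) + T + phz b.Φ y * S)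
      / gm0 b.g b.Φ y := by
    have hS' : S = ∑ i, ∑ j, G i j * (pderiv i z x * y.2.2.2 j + pderiv j z x * y.2.2.2 i) := by
      simp only [hS, add_mul, mul_add, Finset.sum_add_distrib, Finset.sum_mul]
      congr 1
      · exact Finset.sum_congr rfl fun i _ => Finset.sum_congr rfl fun j _ => by ring
      · rw [Finset.sum_comm]
        exact Finset.sum_congr rfl fun i _ => Finset.sum_congr rfl fun j _ => by ring
    rw [hS', hD, hA, hT, ← Finset.sum_sub_distrib, Finset.mul_sum, Finset.mul_sum,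
      ← Finset.sum_add_distrib, ← Finset.sum_add_distrib, Finset.sum_div, H01]
    refine Finset.sum_congr rfl fun i _ => ?_
    rw [← Finset.sum_sub_distrib, Finset.mul_sum, Finset.mul_sum,
      ← Finset.sum_add_distrib, ← Finset.sum_add_distrib, Finset.sum_div]
    refine Finset.sum_congr rfl fun j _ => ?_
    simp only [hh1, tot, phz, xi, ← hG]
    ring
  have h2 : ∑ i, b.sys.b1 y i * pderiv i z x = -(phz b.Φ y / ph b.Φ y) * S := by
    rw [hS, Finset.mul_sum]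
    exact Finset.sum_congr rfl fun i _ => by simp only [Bg.sys, ← hG]; ring
  have h3 : b.sys.c1 y = A + gm0 b.g b.Φ y / ph b.Φ y * (b.τ * f x + ∑ i, ∑ j, G i j * b.K x i j)
      - T / ph b.Φ y := rfl
  have h4 : aD2 (fun y => b.sys.a1 (st f z y)) f x = D := rfl
  rw [h1, h2, h3, h4, hK]
  constructor
  · intro h
    field_simp at h ⊢
    linarith
  · intro h
    field_simp at h ⊢
    linarith

/-- equation (U) in triangular form, at a point -/
lemma e2_iff {b : Bg n} (hb : b.Reg) (hf : ContDiff ℝ ∞ f) (hz : ContDiff ℝ ∞ z) (x : E n) :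
    (aD2 (fun y => b.sys.a2 (st f z y)) z x = b.sys.F2 (st f z x, xi f z x))
    ↔ 2 * laplaceBeltrami (gb b.g (b.φ f z) f) z x + P1.al n * gam (gb b.g (b.φ f z) f) z z x
      = scalarCurv (gb b.g (b.φ f z) f) x + b.Gs (st f z x) := by
  have hd := hb.jd hf hz
  have hx := mem_univ x
  have hφ : 0 < ph b.Φ (st f z x) := hb.Φ_pos _
  have z2 : ContDiffAt ℝ 2 z x := hz.contDiffAt.of_le (by norm_cast)
  have φ2 := hd.cφ2 hx
  rw [Bg.φ_eq, hd.lap_gb hx z2, hd.id_G hx, lap_eq_traceK hb.riem hx φ2, ← bil_hessM,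
    ← H01_st hb.Φ_smooth hf hz, ← aa1_st hb.Φ_smooth hf hz x hb.Φ_pos, ← pp0_st, ← ph_st]
  set y := st f z x with hy
  set Y : Y1 n := (y, xi f z x) with hY
  set G := gbi b.g b.Φ y with hG
  set D := ∑ i, ∑ j, G i j * pderiv i (pderiv j z) x with hD
  set DP := ∑ i, ∑ j, Pi0 b.g b.Φ y i j * pderiv i (pderiv j z) x with hDP
  set A := ∑ i, ∑ j, G i j * ∑ k, christoffel b.g x k i j * pderiv k z x with hA
  set RR := ∑ i, ∑ j, Pi0 b.g b.Φ y i j
    * (rest b.Φ Y i j - ∑ k, christoffel b.g x k i j * tot b.Φ Y k) with hRR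
  set V := ∑ i, ∑ j, G i j * tot b.Φ Y i * pderiv j z x with hV
  have e1 : traceK (gb b.g (along b.Φ f z) f) (hessM b.g z) x = D - A := by
    rw [hD, hA, ← Finset.sum_sub_distrib, traceK]
    refine Finset.sum_congr rfl fun i _ => ?_
    rw [← Finset.sum_sub_distrib]
    refine Finset.sum_congr rfl fun j _ => ?_
    rw [hessM_apply z2, mul_sub]; rfl
  have e2 : gam (gb b.g (along b.Φ f z) f) z (lv (along b.Φ f z)) x = V / ph b.Φ y := by
    rw [gam_comm hd.riemb hx, gam, hV, Finset.sum_div]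
    refine Finset.sum_congr rfl fun i _ => ?_
    rw [Finset.sum_div]
    refine Finset.sum_congr rfl fun j _ => ?_
    rw [pd_lv hb.Φ_smooth hf hz x hb.Φ_pos, ← gbi_st]
    ring
  have e3 : fderiv ℝ z x (wv b.g (along b.Φ f z) f x) = ∑ j, w0 b.g b.Φ y j * pderiv j z x := by
    rw [R202.Tens.fderiv_eq_sum]; rfl
  have e4 : pp0 b.g b.Φ y * traceK b.g (hessM b.g (along b.Φ f z)) x
      - bil (hessM b.g (along b.Φ f z) x) (wv b.g (along b.Φ f z) f x)
        (wv b.g (along b.Φ f z) f x) = RR + phz b.Φ y * DP := by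
    rw [hRR, hDP, traceK, bil_apply, Finset.mul_sum, Finset.mul_sum, ← Finset.sum_sub_distrib,
      ← Finset.sum_add_distrib]
    refine Finset.sum_congr rfl fun i _ => ?_
    rw [Finset.mul_sum, Finset.mul_sum, ← Finset.sum_sub_distrib, ← Finset.sum_add_distrib]
    refine Finset.sum_congr rfl fun j _ => ?_
    rw [hessM_apply φ2, pd2_along hb.Φ_smooth hf hz]
    simp only [pd_along hb.Φ_smooth hf hz, Pi0, ← w0_st, ← hy, ← hY]
    have : y.1 = x := rfl
    rw [this]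
    ring
  have e5 : normSqK (gb b.g (along b.Φ f z) f)
      (fun y => hh b.g (along b.Φ f z) f y + aa b.g (along b.Φ f z) f y • XX (along b.Φ f z) f y) x
      = ∑ i, ∑ j, ∑ k, ∑ l, G i k * G j l * hx1 b.g b.Φ Y i j * hx1 b.g b.Φ Y k l := by
    simp only [normSqK, hY, hy, hx1_st hb.Φ_smooth hf hz x hb.Φ_pos]
    rfl
  have e6 : bil (ricM b.g x) (wv b.g (along b.Φ f z) f x) (wv b.g (along b.Φ f z) f x)
      = ∑ i, ∑ j, ricci b.g x i j * w0 b.g b.Φ y i * w0 b.g b.Φ y j := bil_ricM _ _ _ _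
  have e7 : gam (gb b.g (along b.Φ f z) f) z z x
      = ∑ i, ∑ j, G i j * pderiv i z x * pderiv j z x := rfl
  have h4 : aD2 (fun y => b.sys.a2 (st f z y)) z x
      = 2 * D + 2 * (phz b.Φ y / ph b.Φ y) * DP := by
    rw [hD, hDP, Finset.mul_sum, Finset.mul_sum, ← Finset.sum_add_distrib, aD2]
    refine Finset.sum_congr rfl fun i _ => ?_
    rw [Finset.mul_sum, Finset.mul_sum, ← Finset.sum_add_distrib]
    refine Finset.sum_congr rfl fun j _ => ?_
    simp only [Bg.sys, Matrix.of_apply, ← hy, ← hG]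
    ring
  have h5 : b.sys.F2 Y = 2 * A - 2 * pp0 b.g b.Φ y * (V / ph b.Φ y)
      + 2 * H01 b.g b.Φ Y * (∑ j, w0 b.g b.Φ y j * pderiv j z x)
      - P1.al n * (∑ i, ∑ j, G i j * pderiv i z x * pderiv j z x) + scalarCurv b.g x
      - 2 * (∑ i, ∑ j, ricci b.g x i j * w0 b.g b.Φ y i * w0 b.g b.Φ y j)
      - 2 * (RR / ph b.Φ y) + (H01 b.g b.Φ Y + pp0 b.g b.Φ y * aa1 b.g b.Φ Y) ^ 2
      - (∑ i, ∑ j, ∑ k, ∑ l, G i k * G j l * hx1 b.g b.Φ Y i j * hx1 b.g b.Φ Y k l)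
      + b.Gs y := rfl
  rw [e1, e2, e3, e4, e5, e6, e7, h4, h5, add_div, mul_div_right_comm]
  constructor <;> intro h <;> linarith

theorem sol : SolStmt := fun _ _ hb _ _ =>
  ⟨fun h => ⟨h.sf, h.sz, fun x => (e1_iff hb h.sf h.sz x).1 (h.e1 x),
      fun x => (e2_iff hb h.sf h.sz x).1 (h.e2 x)⟩,
    fun h => ⟨h.1, h.2, fun x => (e1_iff hb h.1 h.2 x).2 (h.jang x),
      fun x => (e2_iff hb h.1 h.2 x).2 (h.conf x)⟩⟩

end Crest.Agent.N346.Br

end
end

-- ▼ part N346/Br/Main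
section

/-! Row 346, bridge: `RegStmt`, `TorStmt`, `ExStmt`, `LimStmt` of Part 1 from the abstract theory. -/

set_option autoImplicit false

open MeasureTheory Filter Topology Set
open scoped ContDiff
open Crest.GeometryTopology.CoordMetric Crest.MathPhysics.ExteriorData
open Crest.Agent.R202.Tens Crest.Agent.R247.Bo84
open Crest.Agent.N346.Id hiding xi
open Crest.Agent.N346.An (Y0 Y1 Xi st xi UB UC N0 N1 Pol Adm en gsq aD2)
open Crest.Agent.N346.P1 (Par Coef Bdd Sys)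

noncomputable section

namespace Crest.Agent.N346.Br

variable {n : ℕ}

theorem Fam.reindex {ι κ : Type} {b : ι → Bg n} (h : Fam b) (r : κ → ι) : Fam fun k => b (r k) where
  reg := fun _ => h.reg _
  g_uc := fun i j => (h.g_uc i j).reindex r
  g_lo := h.g_lo.imp fun _ H => ⟨H.1, fun _ => H.2 _⟩
  K_uc := fun i j => (h.K_uc i j).reindex r
  Φ_ub := h.Φ_ub.reindex r
  Φ_lo := h.Φ_lo.imp fun _ H => ⟨H.1, fun _ => H.2 _⟩
  Φ_z := fun _ => h.Φ_z _
  Gs_ub := h.Gs_ub.reindex r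
  τ_bdd := h.τ_bdd.imp fun _ H _ => H _

/-- agreement of two coefficient sets at the points `y'` and `y` -/
def Agree (c' c : Coef n) (y' y : E n) : Prop :=
  c'.g y' = c.g y ∧ c'.K y' = c.K y ∧ c'.EE y' = c.EE y ∧ c'.a1 y' = c.a1 y ∧ c'.a2 y' = c.a2 y ∧
    c'.b1 y' = c.b1 y ∧ c'.b2 y' = c.b2 y ∧ c'.cw y' = c.cw y ∧ c'.mw y' = c.mw y ∧ c'.an y' = c.an y

theorem Agree.bg {c' c : Coef n} {y' y : E n} (h : Agree c' c y' y) (P : Par) (t : ℝ) :
    (bgOf P c' t).g y' = (bgOf P c t).g y ∧ (bgOf P c' t).K y' = (bgOf P c t).K y ∧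
      (∀ s, (bgOf P c' t).Φ (y', s) = (bgOf P c t).Φ (y, s)) ∧
      ∀ s, (bgOf P c' t).Gs (y', s) = (bgOf P c t).Gs (y, s) := by
  obtain ⟨h1, h2, h3, h4, h5, h6, h7, h8, h9, h10⟩ := h
  refine ⟨?_, ?_, fun s => ?_, fun s => ?_⟩
  · simp only [bgOf, Coef.gt, h1]
  · simp only [bgOf, Coef.Kt, h2]
  · simp only [bgOf, bgΦ, h4, h5]
  · simp only [bgOf, bgΦ, pp0, sq0, eSq0, gb0, ph, prj, inverseField, Coef.gt, h1, h3, h4, h5, h6,
      h7, h8, h9, h10]

theorem agree_of_per {c : Coef n} {L : ℝ} (h : ∀ u ∈ c.comps, P1.Per L u) (y : E n) (j : Fin n) :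
    Agree c c (y + EuclideanSpace.single j L) y := by
  refine ⟨?_, ?_, ?_, h _ (by simp [Coef.comps]) j y, h _ (by simp [Coef.comps]) j y,
    h _ (by simp [Coef.comps]) j y, h _ (by simp [Coef.comps]) j y, h _ (by simp [Coef.comps]) j y,
    h _ (by simp [Coef.comps]) j y, h _ (by simp [Coef.comps]) j y⟩
  · ext a b; exact h _ (Or.inl ⟨a, b, rfl⟩) j y
  · ext a b; exact h _ (Or.inr (Or.inl ⟨a, b, rfl⟩)) j y
  · ext a; exact h _ (Or.inr (Or.inr (Or.inl ⟨a, rfl⟩))) j y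

theorem sys_per (hC : CongStmt) (P : Par) {c : Coef n} {L : ℝ} (h : ∀ u ∈ c.comps, P1.Per L u)
    (t : ℝ) : (bgOf P c t).sys.Per L := by
  have H := fun x (j : Fin n) => hC n (bgOf P c t) (bgOf P c t) x (EuclideanSpace.single j L) rfl
    (Eventually.of_forall fun y => (agree_of_per h y j).bg P t)
  exact ⟨fun s x j => (H x j s).1, fun s x j => (H x j s).2.1, fun s x j => (H x j s).2.2.1,
    fun s x j => (H x j s).2.2.2.1, fun s ξ x j => (H x j s).2.2.2.2 ξ⟩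

theorem n0_le {f z : E n → ℝ} {x : E n} {B0 : ℝ}
    (h : |f x| ≤ B0 ∧ |z x| ≤ B0 ∧ ‖fderiv ℝ f x‖ ≤ B0) : N0 (st f z x) ≤ B0 := by
  have h0 : 0 ≤ B0 := (abs_nonneg _).trans h.1
  refine norm_prod_le_iff.2 ⟨h.1, norm_prod_le_iff.2 ⟨h.2.1, (pi_norm_le_iff_of_nonneg h0).2
    fun i => (Bs.abs_pd_le i f x).trans h.2.2⟩⟩

theorem reg (hR : An.RegStmt) (hS : StrStmt) : P1.RegStmt := by
  intro n hn P hP he he1 lam B0 B
  let ι : Type := {p : (Coef n × ℝ) × ℝ × (E n → ℝ) × (E n → ℝ) // p.1.1.Unif lam B ∧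
    p.1.2 ∈ Icc (0 : ℝ) 1 ∧ 1 ≤ p.2.1 ∧ P1.Per p.2.1 p.2.2.1 ∧ P1.Per p.2.1 p.2.2.2 ∧
    Sys P p.1.1 p.1.2 p.2.2.1 p.2.2.2 ∧
    ∀ x, |p.2.2.1 x| ≤ B0 ∧ |p.2.2.2 x| ≤ B0 ∧ ‖fderiv ℝ p.2.2.1 x‖ ≤ B0}
  have hF : Fam fun a : ι => bgOf P a.1.1.1 a.1.1.2 :=
    (fam n P hP he he1 lam B).reindex fun a : ι => ⟨a.1.1, a.2.1, a.2.2.1⟩
  have hG : ∀ a : ι, (bgOf P a.1.1.1 a.1.1.2).GSys a.1.2.2.1 a.1.2.2.2 :=
    fun a => (gsys_bgOf _ _ _ _ _).2 a.2.2.2.2.2.2.1
  have hb : ∃ M : ℝ, ∀ (a : ι) x, N0 (st a.1.2.2.1 a.1.2.2.2 x) ≤ M :=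
    ⟨B0, fun a x => n0_le (a.2.2.2.2.2.2.2 x)⟩
  obtain ⟨h1, h2⟩ := hR n hn ι (fun a => (bgOf P a.1.1.1 a.1.1.2).sys) (fun a => a.1.2.2.1)
    (fun a => a.1.2.2.2) (adm n ι _ hF)
    ⟨fun a => (sol n _ (hF.reg a) _ _).2 (hG a), fun a k => by
      have hL : 0 < a.1.2.1 := one_pos.trans_le a.2.2.2.1
      obtain ⟨B1, h1⟩ := (P1.per_iff.1 a.2.2.2.2.1).iter_bdd hL (hG a).1 k
      obtain ⟨B2, h2⟩ := (P1.per_iff.1 a.2.2.2.2.2.1).iter_bdd hL (hG a).2 k
      exact ⟨max B1 B2, fun x => ⟨(h1 x).trans (le_max_left _ _), (h2 x).trans (le_max_right _ _)⟩⟩,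
      hb, hS n hn ι _ _ _ hF hG hb⟩
  obtain ⟨B', h3, h4⟩ := ((P1.ev_bdd h1).and (P1.ev_bdd h2)).exists
  refine ⟨B', fun c hc t ht L f z hL _ hf hz hsys hbd => ?_⟩
  exact ⟨h3 ⟨((c, t), L, f, z), hc, ht, hL, hf, hz, hsys, hbd⟩,
    h4 ⟨((c, t), L, f, z), hc, ht, hL, hf, hz, hsys, hbd⟩⟩

theorem tor (hE : An.Ex2Stmt) (hC : CongStmt) (hT : ContStmt) (hS : SchStmt) : P1.TorStmt := by
  intro n hn P hP he he1 hM hz3 lam B c hc L hL hper ⟨B', hB'⟩
  have hL0 : 0 < L := one_pos.trans_le hL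
  have hF : Fam fun t : Icc (0 : ℝ) 1 => bgOf P c t :=
    (fam n P hP he he1 lam B).reindex fun t : Icc (0 : ℝ) 1 => ⟨(c, t), hc, t.2⟩
  obtain ⟨f, z, h1, h2, h3⟩ := hE n L hL0 (fun t => (bgOf P c t).sys) (adm n _ _ hF)
    (fun t _ => sys_per hC P hper t) (hT n P hP he he1 lam B c hc) (by
      let ι : Type := {p : (E n → ℝ) × (E n → ℝ) // Bdd B' p.1 ∧ Bdd B' p.2}
      obtain ⟨M, hM⟩ := An.n1_bdd (f := fun a : ι => a.1.1) (z := fun a : ι => a.1.2)
        (P1.uc_of_bdd fun a => a.2.1) (P1.uc_of_bdd fun a => a.2.2)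
      refine ⟨M, fun t ht f z hs hf hz x => hM ⟨(f, z), hB' t ht f z (P1.per_iff.2 hf)
        (P1.per_iff.2 hz) ((gsys_bgOf _ _ _ _ _).1 ((sol n _ (hF.reg ⟨t, ht⟩) _ _).1 hs))⟩ x⟩)
    (hS n P hP he hM hz3 c L hL0)
  exact ⟨f, z, P1.per_iff.2 h2, P1.per_iff.2 h3,
    (gsys_bgOf _ _ _ _ _).1 ((sol n _ (hF.reg ⟨1, by simp⟩) _ _).1 h1)⟩

theorem bdd_lim {B : ℕ → ℝ} {u : ℕ → E n → ℝ} {v : E n → ℝ} (hu : ∀ j, Bdd B (u j))
    (hv : ContDiff ℝ ∞ v) (h : ∀ k : ℕ, TendstoLocallyUniformly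
      (fun j => iteratedFDeriv ℝ k (u j)) (iteratedFDeriv ℝ k v) atTop) : Bdd B v :=
  ⟨hv, fun k x => le_of_tendsto' ((h k).tendstoLocallyUniformlyOn.tendsto_at (mem_univ x)).norm
    fun j => (hu j).2 k x⟩

/-- limits of bounded solutions when the coefficients stabilise -/
theorem close (hC : CongStmt) {P : Par} (hP : P.OK) (he : 0 < P.e) (he1 : P.e < 1) {lam : ℝ}
    {B B1 B' : ℕ → ℝ} {c : Coef n} (hc : c.Unif lam B) {cs : ℕ → Coef n}
    (hcs : ∀ k, (cs k).Unif lam B1) (ha : ∀ (k : ℕ) (x : E n), ‖x‖ < k → Agree (cs k) c x x)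
    {fs zs : ℕ → E n → ℝ} (hs : ∀ k, Sys P (cs k) 1 (fs k) (zs k) ∧ Bdd B' (fs k) ∧ Bdd B' (zs k)) :
    ∃ (f z : E n → ℝ) (σ : ℕ → ℕ), StrictMono σ ∧ Sys P c 1 f z ∧ Bdd B' f ∧ Bdd B' z ∧
      ∀ x, Tendsto (fun k => fs (σ k) x) atTop (𝓝 (f x)) ∧
        Tendsto (fun k => zs (σ k) x) atTop (𝓝 (z x)) ∧
        ∀ i, Tendsto (fun k => pderiv i (fs (σ k)) x) atTop (𝓝 (pderiv i f x)) := by
  have hF : Fam fun _ : Unit => bgOf P c 1 :=
    (fam n P hP he he1 lam B).reindex fun _ : Unit => ⟨(c, 1), hc, by simp⟩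
  have hF' : Fam fun k : ℕ => bgOf P (cs k) 1 :=
    (fam n P hP he he1 lam B1).reindex fun k : ℕ => ⟨(cs k, 1), hcs k, by simp⟩
  obtain ⟨σ, f, z, hσ, hsol, hlim⟩ := An.limSol An.lim' n (fun k => (bgOf P (cs k) 1).sys)
    (bgOf P c 1).sys fs zs (adm n _ _ hF)
    (fun k => (sol n _ (hF'.reg k) _ _).2 ((gsys_bgOf _ _ _ _ _).2 (hs k).1))
    (P1.uc_of_bdd fun k => (hs k).2.1) (P1.uc_of_bdd fun k => (hs k).2.2) (fun x => by
      filter_upwards [tendsto_natCast_atTop_atTop.eventually (eventually_gt_atTop ‖x‖)] with k hk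
      have := hC n (bgOf P c 1) (bgOf P (cs k) 1) x 0 rfl (by
        filter_upwards [(isOpen_lt continuous_norm continuous_const).mem_nhds hk] with y hy
        rw [add_zero]
        exact (ha k y hy).bg P 1)
      simpa only [add_zero] using this)
  refine ⟨f, z, σ, hσ, (gsys_bgOf _ _ _ _ _).1 ((sol n _ (hF.reg ()) _ _).1 hsol),
    bdd_lim (fun j => (hs (σ j)).2.1) hsol.sf fun k => (hlim k).1,
    bdd_lim (fun j => (hs (σ j)).2.2) hsol.sz fun k => (hlim k).2, fun x =>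
    ⟨An.tendsto_val (hlim 0).1 x, An.tendsto_val (hlim 0).2 x,
      fun i => An.tendsto_pd (hlim 1).1 i x⟩⟩

theorem ex (hC : CongStmt) (hA : P1.APStmt) (hR : P1.RegStmt) (hT : P1.TorStmt) : P1.ExStmt := by
  intro n hn θ t0 t1 lam B hP
  obtain ⟨B1, hB1⟩ := P1.unif_comp (n := n) lam B
  obtain ⟨N, e1, he1, hAP⟩ := hA n hn θ t0 t1 lam B1 hP
  refine ⟨N, min e1 (1 / 2), by positivity, fun e he hle M hM z3 hz3 => ?_⟩
  have hlt : e < 1 := lt_of_le_of_lt (hle.trans (min_le_right _ _)) (by norm_num)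
  have hP' : (⟨θ, t0, t1, e, M, z3⟩ : Par).OK := ⟨hP.1, hP.2, hP.3, hP.4, hP.5⟩
  have hM0 : 0 ≤ M := le_trans (by positivity) hM
  obtain ⟨B0, hB0⟩ := hAP e he (hle.trans (min_le_left _ _)) M hM z3 hz3
  obtain ⟨B', hB'⟩ := hR n hn _ hP' he hlt lam B0 B1
  refine ⟨B', fun c hc => ?_⟩
  obtain ⟨cs, hcs, ha⟩ := hB1 c hc
  have hL : ∀ k : ℕ, (1 : ℝ) ≤ 8 * (k + 1 : ℝ) := fun k => by
    have : (0 : ℝ) ≤ k := Nat.cast_nonneg k
    linarith
  have key : ∀ k : ℕ, ∀ t ∈ Icc (0 : ℝ) 1, ∀ f z : E n → ℝ, P1.Per (8 * (k + 1 : ℝ)) f →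
      P1.Per (8 * (k + 1 : ℝ)) z → Sys ⟨θ, t0, t1, e, M, z3⟩ (cs k) t f z →
      Bdd B' f ∧ Bdd B' z := fun k t ht f z hf hz hs =>
    hB' (cs k) (hcs k).1 t ht _ f z (hL k) (hcs k).2 hf hz hs
      (hB0 (cs k) (hcs k).1 t ht _ f z (one_pos.trans_le (hL k)) (hcs k).2 hf hz hs)
  have hex : ∀ k : ℕ, ∃ f z : E n → ℝ, Sys ⟨θ, t0, t1, e, M, z3⟩ (cs k) 1 f z ∧ Bdd B' f ∧
      Bdd B' z := fun k => by
    obtain ⟨f, z, hf, hz, hs⟩ := hT n hn _ hP' he hlt hM0 hz3 lam B1 (cs k) (hcs k).1 _ (hL k)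
      (hcs k).2 ⟨B', key k⟩
    exact ⟨f, z, hs, key k 1 (by simp) f z hf hz hs⟩
  choose fs zs hs using hex
  obtain ⟨f, z, -, -, h1, h2, h3, -⟩ := close hC hP' he hlt hc (fun k => (hcs k).1) ha hs
  exact ⟨f, z, h1, h2, h3⟩

theorem unif_zero {S : P1.Setup n} {an : E n → ℝ} {lam : ℝ} {B : ℕ → ℝ}
    (h : (S.coef an).Unif lam B) : (S.coef fun _ => 0).Unif lam B := by
  have hB : ∀ k, 0 ≤ B k := fun k =>
    (norm_nonneg _).trans ((h.bdd an (by simp [Coef.comps, P1.Setup.coef])).2 k 0)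
  refine { h with bdd := fun u hu => ?_, an_mem := fun _ => by simp [P1.Setup.coef] }
  rcases hu with hu | hu | hu | hu | hu | hu | hu | hu | hu | hu
  · exact h.bdd u (Or.inl hu)
  · exact h.bdd u (Or.inr (Or.inl hu))
  · exact h.bdd u (Or.inr (Or.inr (Or.inl hu)))
  iterate 6 exact h.bdd u (by rw [hu]; simp [Coef.comps, P1.Setup.coef])
  rw [hu]
  exact ⟨contDiff_const, fun k x => by
    simpa [P1.Setup.coef, iteratedFDeriv_fun_zero] using hB k⟩

theorem lim (hC : CongStmt) : P1.LimStmt := by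
  intro n hn S hS e M z3 Λ L0 B he he1 hex
  obtain ⟨lam, B1, hU⟩ := P1.unif n hn S hS
  have hP : (S.par e M z3).OK := ⟨hS.par_ok.1, hS.par_ok.2, hS.par_ok.3, hS.par_ok.4, hS.par_ok.5⟩
  let L : ℕ → ℝ := fun k => max (max L0 1) k
  have hL0 : ∀ k, L k ≥ L0 := fun k => (le_max_left _ _).trans (le_max_left _ _)
  have hL1 : ∀ k, L k ≥ 1 := fun k => (le_max_right _ _).trans (le_max_left _ _)
  choose fs zs hs using fun k => hex (L k) (hL0 k)
  obtain ⟨f, z, σ, -, h1, h2, h3, h4⟩ := close hC hP he he1 (unif_zero (hU 1 le_rfl))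
    (cs := fun k => S.coef fun x => 1 - eta (L k) x) (fun k => hU _ (hL1 k))
    (fun k x hx => ⟨rfl, rfl, rfl, rfl, rfl, rfl, rfl, rfl, rfl, by
      have : eta (L k) x = 1 := Bs.eta_eq_one (one_pos.trans_le (hL1 k))
        (hx.le.trans (le_max_right _ _))
      simp [P1.Setup.coef, this]⟩)
    (fun k => ⟨(hs k).1, (hs k).2.1, (hs k).2.2.1⟩)
  have hE := fun k => (hs (σ k)).2.2.2
  refine ⟨f, z, h1, h2, h3, fun x => ge_of_tendsto' (h4 x).2.1 fun k => (hE k).z_lo x,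
    fun x => le_of_tendsto' ((Real.continuous_exp.tendsto _).comp (h4 x).2.1)
      fun k => (hE k).z_hi x, fun x => ?_,
    fun x hx => le_of_tendsto' ((h4 x).1.const_mul _) fun k => (hE k).inner x hx,
    fun x hx => ge_of_tendsto' (h4 x).2.1 fun k => (hE k).far_z5 x hx,
    fun x hx => le_of_tendsto' (h4 x).1.abs fun k => (hE k).far_f x hx,
    fun x hx => le_of_tendsto' (h4 x).2.1.abs fun k => (hE k).far_z x hx⟩
  refine le_of_tendsto' (x := (atTop : Filter ℕ)) ?_ fun k => (hE k).gm_hi x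
  have hφ : Continuous fun q : ℝ × ℝ => (S.par e M z3).phiF 1 ((S.coef fun _ => 0).a1 x)
      ((S.coef fun _ => 0).a2 x) q.1 q.2 := by
    have h := fun a b => (P1.contDiff_cut a b).continuous
    unfold Par.phiF Par.chi Par.Ph
    fun_prop
  have hφ' := (hφ.tendsto (f x, z x)).comp ((h4 x).1.prodMk_nhds (h4 x).2.1)
  unfold gm Id.sq gam
  refine (tendsto_const_nhds.add ((hφ'.pow 2).mul (tendsto_finsetSum _ fun i _ =>
    tendsto_finsetSum _ fun j _ =>
      (tendsto_const_nhds.mul ((h4 x).2.2 i)).mul ((h4 x).2.2 j)))).sqrt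

end Crest.Agent.N346.Br

end
end

-- ▼ part N346/Br/StrE
section

/-! Row 346, Br-3 (helper73): the estimates for a family of solutions evaluated at points. -/

set_option autoImplicit false

open scoped ContDiff Topology
open Filter Set
open Crest.GeometryTopology.CoordMetric Crest.MathPhysics.ExteriorData
open Crest.Agent.R202.Tens Crest.Agent.R247.Bo84 Crest.Agent.N346.Id Crest.Agent.N346.Bs
open Crest.Agent.N346.An (en gsq gsq_nonneg abs_pd_le_gsq en_nonneg)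

noncomputable section

namespace Crest.Agent.N346.Br.Str

variable {n : ℕ} {P : Type}

/-- a solution and a point; `dφ = t + s dz` at the point -/
structure Dt (n : ℕ) where
  g : MetricField n
  K : MetricField n
  φ : E n → ℝ
  f : E n → ℝ
  z : E n → ℝ
  x : E n
  τ : ℝ
  Gs : ℝ
  s : ℝ
  t : Fin n → ℝ

namespace Dt
variable (d : Dt n)
abbrev G : MetricField n := gb d.g d.φ d.f
abbrev w : E n := wv d.g d.φ d.f d.x
abbrev h : Matrix (Fin n) (Fin n) ℝ := hh d.g d.φ d.f d.x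
abbrev Z : Matrix (Fin n) (Fin n) ℝ := ZZ d.g d.φ d.f d.K d.x
abbrev p : ℝ := pp d.g d.φ d.f d.x
abbrev a : ℝ := aa d.g d.φ d.f d.x
abbrev H : ℝ := H0 d.g d.φ d.f d.x
abbrev dz (i : Fin n) : ℝ := pderiv i d.z d.x
abbrev gs : ℝ := gsq d.z d.x
abbrev e : ℝ := en d.f d.z d.x
abbrev vol : ℝ := √(d.G d.x).det
abbrev VE (α : ℝ) : VectorField n := dens d.G (vE d.g d.K d.φ d.f d.z α)
abbrev VG (l : ℝ) : VectorField n := dens d.G (vG d.g d.φ d.f d.z l)
end Dt

/-- the uniform bounds -/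
structure FB (α : ℝ) (q : P → Dt n) : Prop where
  jd : ∀ p, Jd (q p).g (q p).φ (q p).f univ
  sym : ∀ p, SymT (q p).K univ
  zs : ∀ p, ContDiff ℝ ∞ (q p).z
  jang : ∀ p y, Th (q p).g (q p).φ (q p).f (q p).K y = (q p).τ * (q p).f y
  conf : ∀ p, 2 * laplaceBeltrami (q p).G (q p).z (q p).x + α * gam (q p).G (q p).z (q p).z (q p).x
    = scalarCurv (q p).G (q p).x + (q p).Gs
  dφ : ∀ p i, pderiv i (q p).φ (q p).x = (q p).t i + (q p).s * (q p).dz i
  s0 : ∀ p, 0 ≤ (q p).s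
  bf : B fun p => (q p).f (q p).x
  bdf : ∀ i, B fun p => pderiv i (q p).f (q p).x
  bz : B fun p => (q p).z (q p).x
  bτ : B fun p => (q p).τ
  bGs : B fun p => (q p).Gs
  bs : B fun p => (q p).s
  bt : ∀ i, B fun p => (q p).t i
  bφ : B fun p => (q p).φ (q p).x
  pφ : Pos fun p => (q p).φ (q p).x
  bγ : B fun p => gm (q p).g (q p).φ (q p).f (q p).x
  bp : B fun p => (q p).p
  bw : ∀ i, B fun p => (q p).w i
  bgi : ∀ i j, B fun p => inverseField (q p).g (q p).x i j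
  bGi : ∀ i j, B fun p => inverseField (q p).G (q p).x i j
  ell : ∃ c, 0 < c ∧ ∀ p v, c * ∑ i, v i * v i ≤ qb (inverseField (q p).G (q p).x) v v
  bvol : B fun p => (q p).vol
  pvol : Pos fun p => (q p).vol
  bΓ : ∀ k i j, B fun p => christoffel (q p).g (q p).x k i j
  bRic : ∀ i j, B fun p => ricci (q p).g (q p).x i j
  bK : ∀ i j, B fun p => (q p).K (q p).x i j
  bJ : ∀ i, B fun p => momentumDensity (q p).g (q p).K (q p).x i

namespace FB

variable {α : ℝ} {q : P → Dt n} (h : FB α q)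

local notation "𝒟" => fun p => 1 + √(Dt.gs (q p))

theorem odz (i : Fin n) : O 𝒟 fun p => (q p).dz i :=
  ⟨1, zero_le_one, fun p => by
    have := abs_pd_le_gsq (q p).z (q p).x i
    simp only
    linarith⟩

theorem gs_nonneg (p : P) : 0 ≤ (q p).gs := gsq_nonneg _ _

include h

theorem odφ (i : Fin n) : O 𝒟 fun p => pderiv i (q p).φ (q p).x :=
  ((h.bt i).toD.add (O.bmul h.bs (odz i))).congr fun p => h.dφ p i

theorem odv (i : Fin n) : O 𝒟 fun p => pderiv i (lv (q p).φ) (q p).x :=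
  ((h.odφ i).div h.pφ).congr fun p => pderiv_lv (h.jd p) i

theorem oa : O 𝒟 fun p => (q p).a :=
  (O.sum _ fun i => O.bmul (h.bw i) (h.odv i)).congr fun _ => fderiv_eq_sum _ _ _

theorem oV (i : Fin n) : O 𝒟 fun p => Vv (q p).g (q p).φ (q p).f (q p).x i :=
  O.sum Finset.univ fun j => O.bmul (h.bGi i j) (h.odv j)

theorem oP (i : Fin n) : O 𝒟 fun p => Pv (q p).g (q p).φ (q p).f (q p).x i :=
  (O.bmul h.bp (O.sum Finset.univ fun j => O.bmul (h.bgi i j) (h.odv j))).sub (h.oa.mulb (h.bw i))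

theorem bR : B fun p => scalarCurv (q p).g (q p).x :=
  O.sum2 fun i j => O.bmul (h.bgi i j) (h.bRic i j)

theorem btr : B fun p => traceK (q p).g (q p).K (q p).x :=
  O.sum2 fun i j => O.bmul (h.bgi i j) (h.bK i j)

theorem bμ : B fun p => energyDensity (q p).g (q p).K (q p).x :=
  (O.cmul (1 / 2) ((h.bR.add h.btr.sq).sub (O.sum2 fun i j => O.sum2 fun a b =>
    (((h.bgi i a).mulb (h.bgi j b)).mulb (h.bK i j)).mulb (h.bK a b)))).congr fun p => by
      simp only [energyDensity, normSqK]; ring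

theorem bH : B fun p => (q p).H :=
  ((O.bmul h.bτ h.bf).add (O.sum2 fun i j => O.bmul (h.bGi i j) (h.bK i j))).congr fun p => by
    have := Jd.Th_eq (g := (q p).g) (φ := (q p).φ) (f := (q p).f) (K := (q p).K) (x := (q p).x)
    rw [h.jang] at this
    simp only [Dt.H, this, traceK]
    ring

theorem gam_ge : ∃ c, 0 < c ∧ ∀ p, c * (q p).gs ≤ gam (q p).G (q p).z (q p).z (q p).x := by
  obtain ⟨c, hc, h⟩ := h.ell
  exact ⟨c, hc, fun p => by
    simp only [Dt.gs, gsq, pow_two]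
    exact h p fun i => (q p).dz i⟩

theorem norm_ge : ∃ c, 0 < c ∧ ∀ p (T : MetricField n),
    c * ∑ i, ∑ j, T (q p).x i j ^ 2 ≤ normSqK (q p).G T (q p).x := by
  obtain ⟨c, hc, h'⟩ := h.ell
  exact ⟨c ^ 2, by positivity, fun p T =>
    tensor_lower ((h.jd p).riemb.posDef _ (mem_univ _)).inv hc.le (h' p) _⟩

theorem ohess (i j : Fin n) : O 𝒟 fun p =>
    ∑ k, christoffel (q p).g (q p).x k i j * pderiv k (q p).f (q p).x
      - (pderiv i (q p).φ (q p).x * pderiv j (q p).f (q p).x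
        + pderiv j (q p).φ (q p).x * pderiv i (q p).f (q p).x) / (q p).φ (q p).x :=
  (B.toD (O.sum _ fun k => O.bmul (h.bΓ k i j) (h.bdf k))).sub
    ((((h.odφ i).mulb (h.bdf j)).add ((h.odφ j).mulb (h.bdf i))).div h.pφ)

theorem en_le_h : ∃ C, 0 < C ∧ ∀ p,
    (q p).e ≤ C * (1 + ((∑ i, ∑ j, (q p).h i j ^ 2) + (q p).gs)) :=
  sq_le_of gs_nonneg (h.bγ.div h.pφ) h.ohess fun i j p => hess_f (h.jd p) i j

theorem en_le_Z : ∃ C, 0 < C ∧ ∀ p,
    (q p).e ≤ C * (1 + ((∑ i, ∑ j, (q p).Z i j ^ 2) + (q p).gs)) :=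
  sq_le_of gs_nonneg (h.bγ.div h.pφ)
    (fun i j => (B.toD (O.bmul (h.bγ.div h.pφ) (h.bK i j))).add (h.ohess i j)) fun i j p => by
      rw [hess_f (h.jd p) i j]
      simp only [Dt.Z, ZZ, Matrix.sub_apply]
      ring

theorem oPi : O 𝒟 fun p => ∑ i, ∑ j, ((q p).p * inverseField (q p).g (q p).x i j
    - (q p).w i * (q p).w j) * ((q p).t j / (q p).φ (q p).x) * (q p).dz i :=
  O.sum2 fun i j => O.bmul (((O.bmul h.bp (h.bgi i j)).sub (O.bmul (h.bw i) (h.bw j))).mulb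
    ((h.bt j).div h.pφ)) (odz i)

omit h in
theorem le_sq_add (T : P → Matrix (Fin n) (Fin n) ℝ) (p : P) :
    (q p).gs ≤ (∑ i, ∑ j, T p i j ^ 2) + (q p).gs :=
  le_add_of_nonneg_left
    (Finset.sum_nonneg fun _ _ => Finset.sum_nonneg fun _ _ => _root_.sq_nonneg _)

/-- the first field -/
theorem lowE (h0 : 0 < α) (h2 : α < 2) :
    Low (fun p => (q p).e) fun p => divE ((q p).VE α) (q p).x := by
  obtain ⟨c, hc, hg⟩ := h.gam_ge
  obtain ⟨c', hc', hn⟩ := h.norm_ge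
  have hα : 0 < α - α ^ 2 / 2 := by nlinarith
  have l1 : Low (fun p => (∑ i, ∑ j, (q p).Z i j ^ 2) + (q p).gs) fun p =>
      normSqK (q p).G (ZZ (q p).g (q p).φ (q p).f (q p).K) (q p).x
        + (α - α ^ 2 / 2) * gam (q p).G (q p).z (q p).z (q p).x := by
    refine ⟨min c' ((α - α ^ 2 / 2) * c), by positivity, 0, le_rfl, fun p => ?_⟩
    have a1 := hn p (ZZ (q p).g (q p).φ (q p).f (q p).K)
    have a2 := mul_le_mul_of_nonneg_left (hg p) hα.le
    have a3 := mul_le_mul_of_nonneg_right (min_le_left c' ((α - α ^ 2 / 2) * c))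
      (show 0 ≤ ∑ i, ∑ j, (q p).Z i j ^ 2 from
        Finset.sum_nonneg fun _ _ => Finset.sum_nonneg fun _ _ => _root_.sq_nonneg _)
    have a4 := mul_le_mul_of_nonneg_right (min_le_right c' ((α - α ^ 2 / 2) * c))
      (gs_nonneg (q := q) p)
    simp only [Dt.Z] at a3 ⊢
    linarith
  have o1 : O 𝒟 fun p => 2 * ((∑ i, ∑ j, inverseField (q p).G (q p).x i j * (q p).t i
      * (q p).dz j) / (q p).φ (q p).x) :=
    O.cmul 2 ((O.sum2 fun i j => O.bmul ((h.bGi i j).mulb (h.bt i)) (odz j)).div h.pφ)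
  have o2 : B fun p => 2 * (energyDensity (q p).g (q p).K (q p).x - Jw (q p).g (q p).K (q p).x (q p).w)
      + ((q p).τ * (q p).f (q p).x) ^ 2
      + 2 * ((q p).τ * (q p).f (q p).x) * traceK (q p).g (q p).K (q p).x
      + 2 * ((q p).τ * fderiv ℝ (q p).f (q p).x (q p).w) + (q p).Gs :=
    ((((O.cmul 2 (h.bμ.sub (O.sum _ fun i => O.bmul (h.bJ i) (h.bw i)))).add
      (B.sq (O.bmul h.bτ h.bf))).add ((O.cmul 2 (O.bmul h.bτ h.bf)).mulb h.btr)).add
      (O.cmul 2 (O.bmul h.bτ ((O.sum _ fun i => O.bmul (h.bw i) (h.bdf i)).congr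
        fun _ => fderiv_eq_sum _ _ _)))).add h.bGs
  have l2 := (((l1.add gs_nonneg (le_sq_add _) o1).add gs_nonneg (le_sq_add _) o2.toD).trans
    h.en_le_Z).mul (fun p => en_nonneg _ _ _)
    (O.bmul h.bvol (O.bmul h.bφ (B.exp (O.cmul α h.bz)))) (h.pvol.mul (h.pφ.mul (B.exp_pos (O.cmul α h.bz))))
  refine l2.of_le fun p => ?_
  rw [divE_dens (h.jd p).riemb, divg_vE (h.jd p) (h.sym p) (h.zs p) (h.jang p) (h.conf p),
    mul_assoc]
  refine mul_le_mul_of_nonneg_left (mul_le_mul_of_nonneg_left ?_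
    (mul_pos (h.pφ.pos p) (Real.exp_pos _)).le) (Real.sqrt_nonneg _)
  have a1 := square_le (z := (q p).z) (x := (q p).x) (h.jd p) α
    (qv (q p).g (q p).φ (q p).f (q p).K (q p).x)
  have a2 := div_le_div_of_nonneg_right (gam_φ (h.jd p) (h.s0 p) (h.dφ p)) (h.pφ.pos p).le
  linarith

/-- the second field -/
theorem lowG (h0 : 0 ≤ α) :
    ∃ l, Low (fun p => (q p).e) fun p => -divE ((q p).VG l) (q p).x := by
  obtain ⟨c, hc, hg⟩ := h.gam_ge
  obtain ⟨c', hc', hn⟩ := h.norm_ge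
  obtain ⟨C, hC, hm⟩ := mix (gs_nonneg (q := q)) (fun i j =>
    O.bmul (((O.cmul 2 ((B.const 1).sub h.bp))).mulb (h.bw i)) (h.oV j)) (half_pos hc')
  refine ⟨(C + 1) / (2 * c), ?_⟩
  set l := (C + 1) / (2 * c) with hl
  have hl0 : 0 ≤ l := by positivity
  have l1 : Low (fun p => (∑ i, ∑ j, (q p).h i j ^ 2) + (q p).gs) fun p =>
      normSqK (q p).G (hh (q p).g (q p).φ (q p).f) (q p).x
        - 2 * (1 - (q p).p) * bil (q p).h (q p).w (Vv (q p).g (q p).φ (q p).f (q p).x)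
        + 2 * l * gam (q p).G (q p).z (q p).z (q p).x := by
    refine ⟨min (c' / 2) 1, by positivity, C, hC, fun p => ?_⟩
    have a1 := hn p (hh (q p).g (q p).φ (q p).f)
    have a2 := mul_le_mul_of_nonneg_left (hg p) (show 0 ≤ 2 * l by positivity)
    have a3 := mul_le_mul_of_nonneg_right (min_le_left (c' / 2) 1)
      (show 0 ≤ ∑ i, ∑ j, (q p).h i j ^ 2 from
        Finset.sum_nonneg fun _ _ => Finset.sum_nonneg fun _ _ => _root_.sq_nonneg _)
    have a4 := mul_le_mul_of_nonneg_right (min_le_right (c' / 2) 1) (gs_nonneg (q := q) p)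
    have a5 := le_of_abs_le (hm p (q p).h)
    have a6 : 2 * (1 - (q p).p) * bil (q p).h (q p).w (Vv (q p).g (q p).φ (q p).f (q p).x)
        = ∑ i, ∑ j, (q p).h i j * (2 * (1 - (q p).p) * (q p).w i
          * Vv (q p).g (q p).φ (q p).f (q p).x j) := by
      simp only [bil_apply, Finset.mul_sum]
      exact Finset.sum_congr rfl fun i _ => Finset.sum_congr rfl fun j _ => by ring
    have a7 : 2 * l * (c * (q p).gs) = (C + 1) * (q p).gs := by rw [hl]; field_simp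
    simp only [Dt.h] at a3 a5 a6 ⊢
    linarith
  have o2 : O 𝒟 fun p => 2 * (1 - (q p).p) * (q p).H * (q p).a
      - ((q p).Gs + scalarCurv (q p).g (q p).x - 2 * bil (ricM (q p).g (q p).x) (q p).w (q p).w
        + (q p).H ^ 2) :=
    (O.bmul ((O.cmul 2 ((B.const 1).sub h.bp)).mulb h.bH) h.oa).sub (B.toD
      (((h.bGs.add h.bR).sub (O.cmul 2 ((O.sum2 fun i j =>
        ((h.bRic i j).mulb (h.bw i)).mulb (h.bw j)).congr fun _ => bil_ricM _ _ _ _))).add h.bH.sq))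
  have l2 := (((l1.add gs_nonneg (le_sq_add _) (O.cmul (2 * l) h.oPi)).add gs_nonneg
    (le_sq_add _) o2).trans h.en_le_h).mul (fun p => en_nonneg _ _ _)
    (O.bmul h.bvol (B.exp (O.cmul l h.bz).neg)) (h.pvol.mul (B.exp_pos (O.cmul l h.bz).neg))
  refine l2.of_le fun p => ?_
  rw [divE_dens (h.jd p).riemb, ← mul_neg √_, divg_vG (h.jd p) (h.zs p) l (h.conf p), mul_assoc]
  refine mul_le_mul_of_nonneg_left (mul_le_mul_of_nonneg_left ?_ (Real.exp_pos _).le)
    (Real.sqrt_nonneg _)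
  have a1 := mul_le_mul_of_nonneg_left (dz_Pv (h.jd p) (h.s0 p) (h.dφ p))
    (show 0 ≤ 2 * l by positivity)
  have a2 := mul_nonneg h0 (gam_self_nonneg (h.jd p).riemb (mem_univ (q p).x) (q p).z)
  linarith

theorem low3 (l : ℝ) : Low (fun p => (q p).gs) fun p => ∑ k, (q p).VG l (q p).x k * (q p).dz k := by
  obtain ⟨c, hc, hg⟩ := h.gam_ge
  have l1 : Low (fun p => (q p).gs) fun p => 2 * gam (q p).G (q p).z (q p).z (q p).x :=
    ⟨2 * c, by positivity, 0, le_rfl, fun p => by linarith [hg p]⟩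
  have l2 := (l1.add gs_nonneg (fun _ => le_rfl) (O.cmul 2 h.oPi)).mul gs_nonneg
    (O.bmul h.bvol (B.exp (O.cmul l h.bz).neg)) (h.pvol.mul (B.exp_pos (O.cmul l h.bz).neg))
  refine l2.of_le fun p => ?_
  rw [sum_vG]
  refine mul_le_mul_of_nonneg_left ?_ (mul_nonneg (Real.sqrt_nonneg _) (Real.exp_pos _).le)
  linarith [dz_Pv (h.jd p) (h.s0 p) (h.dφ p)]

theorem oVG (l : ℝ) (k : Fin n) : O 𝒟 fun p => (q p).VG l (q p).x k :=
  O.bmul h.bvol (O.bmul (B.exp (O.cmul l h.bz).neg)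
    ((O.cmul 2 (O.sum Finset.univ fun j => O.bmul (h.bGi k j) (odz j))).add (O.cmul 2 (h.oP k))))

theorem brem (l : ℝ) (k : Fin n) : B fun p => (q p).VE α (q p).x k
    - (q p).φ (q p).x * Real.exp (α * (q p).z (q p).x) * Real.exp (l * (q p).z (q p).x)
      * (q p).VG l (q p).x k
    - ∑ j, (2 * ((q p).vol * ((q p).φ (q p).x * Real.exp (α * (q p).z (q p).x))) * (q p).w j
        * pderiv j (fun y => wv (q p).g (q p).φ (q p).f y k) (q p).x
      - 2 * ((q p).vol * ((q p).φ (q p).x * Real.exp (α * (q p).z (q p).x))) * (q p).w k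
        * pderiv j (fun y => wv (q p).g (q p).φ (q p).f y j) (q p).x) :=
  (O.bmul (O.cmul 2 (O.bmul h.bvol (O.bmul h.bφ (B.exp (O.cmul α h.bz)))))
    ((((O.sum2 fun i j => ((h.bΓ k i j).mulb (h.bw i)).mulb (h.bw j)).sub
      ((O.sum2 fun j i => (h.bΓ j j i).mulb (h.bw i)).mulb (h.bw k))).add
      (h.bH.mulb (h.bw k))).sub
      (O.sum2 fun i j => ((h.bGi k i).mulb (h.bK i j)).mulb (h.bw j)))).congr
    fun p => vE_sub (h.jd p) α l k

end FB

end Crest.Agent.N346.Br.Str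

end
end

-- ▼ part N346/Br/Str
section

/-! Row 346, Br-3 (helper73): `str : StrStmt`. -/

set_option autoImplicit false

open scoped ContDiff Topology
open Filter Set
open Crest.GeometryTopology.CoordMetric Crest.MathPhysics.ExteriorData
open Crest.Agent.R202.Tens Crest.Agent.R247.Bo84 Crest.Agent.N346.Bs
open Crest.Agent.N346.Id hiding xi
open Crest.Agent.N346.An

noncomputable section

namespace Crest.Agent.N346.Br

namespace Str

variable {n : ℕ} {ι : Type} {b : ι → Bg n} {f z : ι → E n → ℝ} {M : ℝ}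

/-- the data at a point -/
def dt (b : ι → Bg n) (f z : ι → E n → ℝ) (p : ι × E n) : Dt n where
  g := (b p.1).g
  K := (b p.1).K
  φ := along (b p.1).Φ (f p.1) (z p.1)
  f := f p.1
  z := z p.1
  x := p.2
  τ := (b p.1).τ
  Gs := (b p.1).Gs (st (f p.1) (z p.1) p.2)
  s := phz (b p.1).Φ (st (f p.1) (z p.1) p.2)
  t := tot0 (b p.1).Φ (st (f p.1) (z p.1) p.2)

theorem b_of_ub (hM : ∀ a x, N0 (st (f a) (z a) x) ≤ M) {Θ : ι → Y0 n → ℝ} (h : UB N0 Θ) :
    B fun p : ι × E n => Θ p.1 (st (f p.1) (z p.1) p.2) := by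
  obtain ⟨C, -, h⟩ := h.bdd M
  exact B.of_le fun p => h _ _ (hM _ _)

theorem b_of_uc {u : ι → E n → ℝ} (h : UC u) : B fun p : ι × E n => u p.1 p.2 := by
  obtain ⟨C, -, h⟩ := h.bdd 0
  exact B.of_le fun p => h _ _ le_rfl

theorem pos_of_upos (hM : ∀ a x, N0 (st (f a) (z a) x) ≤ M) {Θ : ι → Y0 n → ℝ} (h : UPos N0 Θ) :
    Pos fun p : ι × E n => Θ p.1 (st (f p.1) (z p.1) p.2) := by
  obtain ⟨c, hc, h⟩ := h.2 M
  exact ⟨c, hc, fun p => h _ _ (hM _ _)⟩

theorem uc_J (hb : Fam b) (i : Fin n) : UC fun a x => momentumDensity (b a).g (b a).K x i := by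
  have hg := hb.gf.toGU
  exact (UB.sum _ fun j _ => UB.sum _ fun k _ => (hg.uc_inv j k).mul
    ((((hb.K_uc i j).pd k).sub (UB.sum _ fun l _ => (hg.uc_chr l k i).mul (hb.K_uc l j))).sub
      (UB.sum _ fun l _ => (hg.uc_chr l k j).mul (hb.K_uc i l)))).sub ((hg.uc_traceK hb.K_uc).pd i)

theorem fb (hb : Fam b) (hs : ∀ a, (b a).GSys (f a) (z a))
    (hM : ∀ a x, N0 (st (f a) (z a) x) ≤ M) : FB (P1.al n) (dt b f z) where
  jd p := (hb.reg p.1).jd (hs p.1).f_smooth (hs p.1).z_smooth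
  sym p := (hb.reg p.1).symT
  zs p := (hs p.1).z_smooth
  jang p := (hs p.1).jang
  conf p := (hs p.1).conf p.2
  dφ p i := pd_along (hb.reg p.1).Φ_smooth (hs p.1).f_smooth (hs p.1).z_smooth i p.2
  s0 p := hb.Φ_z _ _
  bf := b_of_ub hM ub_f
  bdf i := b_of_ub hM (ub_p i)
  bz := b_of_ub hM ub_z
  bτ := by
    obtain ⟨T, hT⟩ := hb.τ_bdd
    exact B.of_le fun p => hT p.1
  bGs := b_of_ub hM hb.Gs_ub
  bs := b_of_ub hM hb.gf.phz
  bt i := b_of_ub hM (ub_tot0 hb.Φ_ub i)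
  bφ := b_of_ub hM hb.gf.ph
  pφ := pos_of_upos hM hb.gf.upos_ph
  bγ := b_of_ub hM hb.gf.gm0
  bp := b_of_ub hM hb.gf.pp0
  bw i := b_of_ub hM (hb.gf.w0 i)
  bgi i j := b_of_uc (hb.gf.uc_inv i j)
  bGi i j := b_of_ub hM (hb.gf.gbi i j)
  ell := by
    obtain ⟨lo, hi, hlo, -, h⟩ := hb.gf.gbi_bounds M
    refine ⟨lo, hlo, fun p v => ?_⟩
    have := ((h p.1 _ (hM p.1 p.2)).2 v).1
    simp only [pow_two] at this
    exact this
  bvol := b_of_ub hM hb.gf.sqrt_det_gb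
  pvol := pos_of_upos hM hb.gf.upos_sqrt_det_gb
  bΓ k i j := b_of_uc (hb.gf.uc_chr k i j)
  bRic i j := b_of_uc (hb.gf.uc_ric i j)
  bK i j := b_of_uc (hb.K_uc i j)
  bJ i := b_of_uc (uc_J hb i)

theorem unif {P : Type} {W : P → ℝ} (hW : ∀ p, 0 ≤ W p) {u : Fin n → P → ℝ} (h : ∀ k, O W (u k)) :
    ∃ C, 0 ≤ C ∧ ∀ p k, |u k p| ≤ C * W p := by
  choose C hC h using h
  refine ⟨∑ k, C k, Finset.sum_nonneg fun k _ => hC k, fun p k => (h k p).trans ?_⟩
  exact mul_le_mul_of_nonneg_right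
    (Finset.single_le_sum (fun k _ => hC k) (Finset.mem_univ k)) (hW p)

end Str

open Str

theorem str : StrStmt := by
  rintro n hn ι b f z hb hs ⟨M, hM⟩
  have h := fb hb hs hM
  have hn' : (3 : ℝ) ≤ n := by exact_mod_cast hn
  have h0 : 0 < P1.al n := div_pos (by linarith) (by linarith)
  have h2 : P1.al n < 2 := by
    rw [P1.al, div_lt_iff₀ (by linarith)]
    linarith
  obtain ⟨c₁, hc₁, C₁, hC₁, H₁⟩ := h.lowE h0 h2
  obtain ⟨l, c₂, hc₂, C₂, hC₂, H₂⟩ := h.lowG h0.le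
  obtain ⟨c₃, hc₃, C₃, hC₃, H₃⟩ := h.low3 l
  obtain ⟨C₄, hC₄, H₄⟩ := unif (fun p => by positivity) (h.oVG l)
  obtain ⟨C₅, hC₅, H₅⟩ := unif (fun p => zero_le_one) (h.brem l)
  have hz : ∀ c : ℝ, UB N0 fun (_ : ι) (y : Y0 n) => Real.exp (c * y.2.2.1) := fun c =>
    (UB.const_mul c ub_z).exp
  refine ⟨min c₁ (min c₂ c₃), C₁ + C₂ + C₃ + C₄ + C₅,
    fun a => (dt b f z (a, 0)).VE (P1.al n), fun a => (dt b f z (a, 0)).VG l,
    fun a y => ph (b a).Φ y * Real.exp (P1.al n * y.2.2.1) * Real.exp (l * y.2.2.1),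
    fun a y j => 2 * (√(gb0 (b a).g (b a).Φ y).det * (ph (b a).Φ y * Real.exp (P1.al n * y.2.2.1)))
      * w0 (b a).g (b a).Φ y j,
    fun a y j => w0 (b a).g (b a).Φ y j, by positivity, (hb.gf.ph.mul (hz _)).mul (hz _),
    fun a y => ?_, fun k => (UB.const_mul 2 (hb.gf.sqrt_det_gb.mul (hb.gf.ph.mul (hz _)))).mul
      (hb.gf.w0 k), hb.gf.w0,
    fun a k => contDiff_dens (h.jd (a, 0)).riemb
      (c_vE (h.jd (a, 0)) (h.sym (a, 0)) (h.zs (a, 0)) _) k,
    fun a k => contDiff_dens (h.jd (a, 0)).riemb (c_vG (h.jd (a, 0)) (h.zs (a, 0)) _) k,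
    fun a x => ⟨?_, ?_, ?_, fun k => ?_, fun k => ?_⟩⟩
  · have := (hb.reg a).Φ_pos (prj y)
    unfold ph
    positivity
  · refine le_trans ?_ (H₁ (a, x))
    have := mul_le_mul_of_nonneg_right (min_le_left c₁ (min c₂ c₃)) (en_nonneg (f a) (z a) x)
    change _ ≤ c₁ * en (f a) (z a) x - C₁
    linarith
  · have h1 : c₂ * en (f a) (z a) x - C₂ ≤ -divE ((dt b f z (a, 0)).VG l) x := H₂ (a, x)
    have := mul_le_mul_of_nonneg_right ((min_le_right c₁ (min c₂ c₃)).trans (min_le_left _ _))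
      (en_nonneg (f a) (z a) x)
    linarith
  · refine le_trans ?_ (H₃ (a, x))
    have := mul_le_mul_of_nonneg_right ((min_le_right c₁ (min c₂ c₃)).trans (min_le_right _ _))
      (gsq_nonneg (z a) x)
    change _ ≤ c₃ * gsq (z a) x - C₃
    linarith
  · exact (H₄ (a, x) k).trans (mul_le_mul_of_nonneg_right (by linarith) (by positivity))
  · exact (H₅ (a, x) k).trans (by linarith)

end Crest.Agent.N346.Br

end
end

-- ▼ part N346/Br/Cong
section

/-! Row 346, bridge, leaf B4 (helper8): `cong : CongStmt`. -/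

set_option autoImplicit false

open Filter Topology
open Crest.GeometryTopology.CoordMetric Crest.MathPhysics.ExteriorData

noncomputable section

namespace Crest.Agent.N346.Br

variable {n : ℕ} {x v : E n}

theorem fderiv_cong {X F : Type*} [NormedAddCommGroup X] [NormedSpace ℝ X] [NormedAddCommGroup F]
    [NormedSpace ℝ F] {u' u : X → F} {p w : X} (h : ∀ᶠ y in 𝓝 p, u' (y + w) = u y) :
    fderiv ℝ u' (p + w) = fderiv ℝ u p := by
  rw [← fderiv_comp_add_right]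
  exact Filter.EventuallyEq.fderiv_eq h

theorem pd_cong {u' u : E n → ℝ} (h : ∀ᶠ y in 𝓝 x, u' (y + v) = u y) (i : Fin n) :
    pderiv i u' (x + v) = pderiv i u x := by
  unfold pderiv
  rw [fderiv_cong h]

theorem chr_cong {g' g : MetricField n} (h : ∀ᶠ y in 𝓝 x, g' (y + v) = g y) (k i j : Fin n) :
    christoffel g' (x + v) k i j = christoffel g x k i j := by
  have h1 : ∀ a b c, pderiv a (fun y => g' y b c) (x + v) = pderiv a (fun y => g y b c) x :=
    fun a b c => pd_cong (h.mono fun y hy => by simp only [hy]) a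
  simp only [christoffel, inverseField, h.self_of_nhds, h1]

theorem ric_cong {g' g : MetricField n} (h : ∀ᶠ y in 𝓝 x, g' (y + v) = g y) (i j : Fin n) :
    ricci g' (x + v) i j = ricci g x i j := by
  have h1 : ∀ a b c d, pderiv a (fun y => christoffel g' y b c d) (x + v) =
      pderiv a (fun y => christoffel g y b c d) x := fun a b c d =>
    pd_cong (h.eventually_nhds.mono fun y hy => chr_cong hy b c d) a
  have h2 : pderiv j (fun y => ∑ k, christoffel g' y k k i) (x + v) =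
      pderiv j (fun y => ∑ k, christoffel g y k k i) x :=
    pd_cong (h.eventually_nhds.mono fun y hy => by simp only [chr_cong hy]) j
  simp only [ricci, h1, h2, chr_cong h]

theorem scal_cong {g' g : MetricField n} (h : ∀ᶠ y in 𝓝 x, g' (y + v) = g y) :
    scalarCurv g' (x + v) = scalarCurv g x := by
  simp only [scalarCurv, inverseField, h.self_of_nhds, ric_cong h]

/-- germs of state functions, up to the translation -/
def RelZ (x v : E n) (Θ' Θ : Z n → ℝ) : Prop := ∀ᶠ y in 𝓝 x, ∀ s, Θ' (y + v, s) = Θ (y, s)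

theorem RelZ.eq {Θ' Θ : Z n → ℝ} (h : RelZ x v Θ' Θ) (s : ℝ × ℝ) : Θ' (x + v, s) = Θ (x, s) :=
  h.self_of_nhds s

theorem RelZ.deriv {Θ' Θ : Z n → ℝ} (h : RelZ x v Θ' Θ) (w : Z n) :
    RelZ x v (fun q => fderiv ℝ Θ' q w) fun q => fderiv ℝ Θ q w := by
  refine h.eventually_nhds.mono fun y hy s => ?_
  have h1 : ∀ᶠ q : Z n in 𝓝 (y, s), Θ' (q + (v, 0)) = Θ q :=
    (continuous_fst.continuousAt.tendsto.eventually hy).mono fun q hq => by
      have := hq q.2
      rwa [show q + (v, 0) = (q.1 + v, q.2) from Prod.ext rfl (add_zero _)]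
  have h2 := fderiv_cong h1
  rw [show ((y, s) : Z n) + (v, 0) = (y + v, s) from Prod.ext rfl (add_zero _)] at h2
  simp only [h2]

theorem RelZ.dX {Θ' Θ : Z n → ℝ} (h : RelZ x v Θ' Θ) (j : Fin n) : RelZ x v (dX j Θ') (dX j Θ) :=
  h.deriv _

theorem RelZ.dF {Θ' Θ : Z n → ℝ} (h : RelZ x v Θ' Θ) : RelZ x v (dF Θ') (dF Θ) := h.deriv _

theorem RelZ.dZ {Θ' Θ : Z n → ℝ} (h : RelZ x v Θ' Θ) : RelZ x v (dZ Θ') (dZ Θ) := h.deriv _

theorem RelZ.tot0 {Θ' Θ : Z n → ℝ} (h : RelZ x v Θ' Θ) (s : An.S0 n) (j : Fin n) :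
    tot0 Θ' (x + v, s) j = tot0 Θ (x, s) j := by
  simp only [Br.tot0, prj, (h.dX j).eq, h.dF.eq]

theorem RelZ.tot {Θ' Θ : Z n → ℝ} (h : RelZ x v Θ' Θ) (s : An.S0 n) (ξ : An.Xi n) (j : Fin n) :
    tot Θ' ((x + v, s), ξ) j = tot Θ ((x, s), ξ) j := by
  simp only [Br.tot, prj, h.tot0, h.dZ.eq]

theorem cong : CongStmt := by
  intro n b b' x v hτ h s
  have hg : ∀ᶠ y in 𝓝 x, b'.g (y + v) = b.g y := h.mono fun y hy => hy.1
  have hΦ : RelZ x v b'.Φ b.Φ := h.mono fun y hy => hy.2.2.1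
  obtain ⟨h1, h2, -, h4⟩ := h.self_of_nhds
  have e1 : ph b'.Φ (x + v, s) = ph b.Φ (x, s) := hΦ.eq _
  have e2 : phz b'.Φ (x + v, s) = phz b.Φ (x, s) := hΦ.dZ.eq _
  have e3 : sq0 b'.g b'.Φ (x + v, s) = sq0 b.g b.Φ (x, s) := by
    simp only [sq0, inverseField, e1, h1]
  have e4 : gm0 b'.g b'.Φ (x + v, s) = gm0 b.g b.Φ (x, s) := by simp only [gm0, e3]
  have e5 : pp0 b'.g b'.Φ (x + v, s) = pp0 b.g b.Φ (x, s) := by simp only [pp0, e3]
  have e6 : w0 b'.g b'.Φ (x + v, s) = w0 b.g b.Φ (x, s) := by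
    funext i; simp only [w0, inverseField, e1, e4, h1]
  have e7 : gbi b'.g b'.Φ (x + v, s) = gbi b.g b.Φ (x, s) := by simp only [gbi, gb0, e1, h1]
  have e8 : Gp b'.g (x + v, s) = Gp b.g (x, s) := by
    funext i j; simp only [Gp, chr_cong hg]
  have e9 : Pi0 b'.g b'.Φ (x + v, s) = Pi0 b.g b.Φ (x, s) := by
    funext i j; simp only [Pi0, inverseField, e5, e6, h1]
  refine ⟨e7, ?_, ?_, ?_, fun ξ => ?_⟩
  · simp only [Bg.sys, e1, e2, e7]
  · simp only [Bg.sys, e1, e4, e7, e8, hτ, h2, hΦ.tot0]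
  · simp only [Bg.sys, e1, e2, e7, e9]
  · have f1 : hh1 b'.g b'.Φ ((x + v, s), ξ) = hh1 b.g b.Φ ((x, s), ξ) := by
      funext i j; simp only [hh1, e1, e4, e8, hΦ.tot]
    have f2 : aa1 b'.g b'.Φ ((x + v, s), ξ) = aa1 b.g b.Φ ((x, s), ξ) := by
      simp only [aa1, e1, e6, hΦ.tot]
    have f3 : H01 b'.g b'.Φ ((x + v, s), ξ) = H01 b.g b.Φ ((x, s), ξ) := by
      simp only [H01, e7, f1]
    have f4 : rest b'.Φ ((x + v, s), ξ) = rest b.Φ ((x, s), ξ) := by
      funext i j; simp only [rest, prj, (hΦ.dX j).tot, hΦ.dF.tot, hΦ.dZ.tot, hΦ.dF.eq]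
    have f5 : hx1 b'.g b'.Φ ((x + v, s), ξ) = hx1 b.g b.Φ ((x, s), ξ) := by
      funext i j; simp only [hx1, e1, f1, f2]
    simp only [Bg.sys, e1, e5, e6, e7, e9, f2, f3, f4, f5, h4, hΦ.tot, chr_cong hg, ric_cong hg,
      scal_cong hg]

end Crest.Agent.N346.Br

end
end

-- ▼ part N346/Br/Cont

/-! Row 346, bridge, leaf B6 (helper8): `cont : ContStmt`. -/

set_option autoImplicit false

open Filter Topology Set
open scoped ContDiff
open Crest.GeometryTopology.CoordMetric Crest.MathPhysics.ExteriorData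
open Crest.Agent.N346.An (Y0 Y1)

noncomputable section

namespace Crest.Agent.N346.Br

variable {n : ℕ}

/-- jointly smooth at all times `t ∈ [0,1]` -/
def JS {X : Type} [NormedAddCommGroup X] [NormedSpace ℝ X] (u : ℝ → X → ℝ) : Prop :=
  ∀ t ∈ Icc (0 : ℝ) 1, ∀ x, ContDiffAt ℝ ∞ (fun p : ℝ × X => u p.1 p.2) (t, x)

/-- continuous on `[0,1]` -/
abbrev CT (u : ℝ → ℝ) : Prop := ContinuousOn u (Icc 0 1)

namespace JS

variable {X : Type} [NormedAddCommGroup X] [NormedSpace ℝ X] {u v : ℝ → X → ℝ}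

theorem cont (h : JS u) (x : X) : CT fun t => u t x := fun t ht =>
  (ContinuousAt.comp (f := fun t : ℝ => (t, x)) (h t ht x).continuousAt
    (by fun_prop)).continuousWithinAt

theorem deriv (h : JS u) (w : X) : JS fun t x => fderiv ℝ (u t) x w := fun t ht x => by
  have h0 : ContDiffAt ℝ ∞ (fun q : (ℝ × X) × X => (q.1.1, q.2)) ((t, x), x) := by fun_prop
  have h1 : ContDiffAt ℝ ∞ (fun p : ℝ × X => fderiv ℝ (u p.1) p.2) (t, x) :=
    ContDiffAt.fderiv (f := fun (p : ℝ × X) (y : X) => u p.1 y) (g := Prod.snd) (n := ∞)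
      (ContDiffAt.comp (g := fun p : ℝ × X => u p.1 p.2) ((t, x), x) (h t ht x) h0)
      contDiffAt_snd (by simp)
  exact h1.clm_apply contDiffAt_const

theorem const (c : ℝ) : JS fun (_ : ℝ) (_ : X) => c := fun _ _ _ => contDiffAt_const

theorem add (hu : JS u) (hv : JS v) : JS fun t x => u t x + v t x := fun t ht x =>
  (hu t ht x).add (hv t ht x)

theorem sub (hu : JS u) (hv : JS v) : JS fun t x => u t x - v t x := fun t ht x =>
  (hu t ht x).sub (hv t ht x)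

theorem mul (hu : JS u) (hv : JS v) : JS fun t x => u t x * v t x := fun t ht x =>
  (hu t ht x).mul (hv t ht x)

theorem sum {ι : Type} [Fintype ι] {u : ι → ℝ → X → ℝ} (h : ∀ i, JS (u i)) :
    JS fun t x => ∑ i, u i t x := fun t ht x => ContDiffAt.sum fun i _ => h i t ht x

theorem det {A : ℝ → X → Matrix (Fin n) (Fin n) ℝ} (h : ∀ i j, JS fun t x => A t x i j) :
    JS fun t x => (A t x).det := fun t ht x => by
  simp only [Matrix.det_apply']
  exact ContDiffAt.sum fun σ _ => contDiffAt_const.mul (contDiffAt_prod fun i _ => h _ _ t ht x)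

theorem minv {A : ℝ → X → Matrix (Fin n) (Fin n) ℝ} (h : ∀ i j, JS fun t x => A t x i j)
    (hd : ∀ t ∈ Icc (0 : ℝ) 1, ∀ x, (A t x).det ≠ 0) (i j : Fin n) :
    JS fun t x => (A t x)⁻¹ i j := fun t ht x => by
  simp only [Matrix.inv_def, Matrix.smul_apply, Ring.inverse_eq_inv', smul_eq_mul,
    Matrix.adjugate_apply]
  refine ((det h t ht x).inv (hd t ht x)).mul
    (det (A := fun t x => (A t x).updateRow j (Pi.single i 1)) (fun a b => ?_) t ht x)
  by_cases hab : a = j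
  · simp only [hab, Matrix.updateRow_self]; exact const _
  · simp only [Matrix.updateRow_ne hab]; exact h a b

end JS

theorem ct_det {A : ℝ → Matrix (Fin n) (Fin n) ℝ} (h : ∀ i j, CT fun t => A t i j) :
    CT fun t => (A t).det := by
  simp only [Matrix.det_apply']
  exact continuousOn_finsetSum _ fun σ _ => continuousOn_const.mul
    (continuousOn_finsetProd _ fun i _ => h _ _)

theorem ct_minv {A : ℝ → Matrix (Fin n) (Fin n) ℝ} (h : ∀ i j, CT fun t => A t i j)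
    (hd : ∀ t ∈ Icc (0 : ℝ) 1, (A t).det ≠ 0) (i j : Fin n) : CT fun t => (A t)⁻¹ i j := by
  simp only [Matrix.inv_def, Matrix.smul_apply, Ring.inverse_eq_inv', smul_eq_mul,
    Matrix.adjugate_apply]
  refine ((ct_det h).inv₀ hd).mul
    (ct_det (A := fun t => (A t).updateRow j (Pi.single i 1)) fun a b => ?_)
  by_cases hab : a = j
  · simp only [hab, Matrix.updateRow_self]; exact continuousOn_const
  · simp only [Matrix.updateRow_ne hab]; exact h a b

theorem ct_sum {ι : Type} [Fintype ι] {u : ι → ℝ → ℝ} (h : ∀ i, CT (u i)) :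
    CT fun t => ∑ i, u i t := continuousOn_finsetSum _ fun i _ => h i

theorem sq0_nonneg' {g : MetricField n} {Φ : Z n → ℝ} {y : Y0 n} (h : (g y.1).PosDef) :
    0 ≤ sq0 g Φ y := mul_nonneg (sq_nonneg _) (Bs.qb_nonneg h.inv _)

theorem gb0_posDef' {g : MetricField n} {Φ : Z n → ℝ} {y : Y0 n} (h : (g y.1).PosDef) :
    (gb0 g Φ y).PosDef := by
  refine Bs.posDef_of_qb (fun i j => ?_) fun v hv => ?_
  · simp only [gb0, Matrix.add_apply, Matrix.of_apply, Bs.posDef_symm h i j]; ring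
  · have e : Bs.qb (gb0 g Φ y) v v =
        Bs.qb (g y.1) v v + (ph Φ y * ∑ i, y.2.2.2 i * v i) ^ 2 := by
      rw [mul_pow, sq (∑ i, y.2.2.2 i * v i), Finset.sum_mul_sum]
      simp only [Bs.qb, gb0, Matrix.add_apply, Matrix.of_apply, Finset.mul_sum,
        ← Finset.sum_add_distrib]
      exact Finset.sum_congr rfl fun i _ => Finset.sum_congr rfl fun j _ => by ring
    rw [e]
    exact add_pos_of_pos_of_nonneg (Bs.qb_pos h hv) (sq_nonneg _)

/-- jointly smooth families of metrics and warping factors -/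
structure GC (g : ℝ → MetricField n) (Φ : ℝ → Z n → ℝ) : Prop where
  hg : ∀ i j, JS fun t x => g t x i j
  pos : ∀ t ∈ Icc (0 : ℝ) 1, ∀ x, (g t x).PosDef
  hΦ : JS Φ
  Φpos : ∀ t ∈ Icc (0 : ℝ) 1, ∀ q, 0 < Φ t q

theorem JS.tot0 {Θ : ℝ → Z n → ℝ} (h : JS Θ) (y : Y0 n) (j : Fin n) :
    CT fun t => tot0 (Θ t) y j :=
  ((h.deriv _).cont _).add (((h.deriv _).cont _).mul continuousOn_const)

theorem JS.tot {Θ : ℝ → Z n → ℝ} (h : JS Θ) (Y : Y1 n) (j : Fin n) :
    CT fun t => tot (Θ t) Y j :=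
  (h.tot0 _ j).add (((h.deriv _).cont _).mul continuousOn_const)

namespace GC

variable {g : ℝ → MetricField n} {Φ : ℝ → Z n → ℝ} (h : GC g Φ)
include h

theorem inv (i j : Fin n) : JS fun t x => inverseField (g t) x i j :=
  JS.minv h.hg (fun t ht x => (h.pos t ht x).det_pos.ne') i j

theorem chr (k i j : Fin n) : JS fun t x => christoffel (g t) x k i j :=
  (JS.const _).mul (JS.sum fun l => (h.inv k l).mul
    ((((h.hg j l).deriv _).add ((h.hg i l).deriv _)).sub ((h.hg i j).deriv _)))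

theorem ric (i j : Fin n) : JS fun t x => ricci (g t) x i j :=
  (((JS.sum fun k => (h.chr k i j).deriv _).sub
    ((JS.sum fun k => h.chr k k i).deriv _)).add
    (JS.sum fun k => JS.sum fun l => (h.chr k k l).mul (h.chr l i j))).sub
    (JS.sum fun k => JS.sum fun l => (h.chr k j l).mul (h.chr l k i))

theorem scal : JS fun t x => scalarCurv (g t) x :=
  JS.sum fun i => JS.sum fun j => (h.inv i j).mul (h.ric i j)

variable (y : Y0 n) (Y : Y1 n)

theorem ph : CT fun t => ph (Φ t) y := h.hΦ.cont _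

theorem ph_ne : ∀ t ∈ Icc (0 : ℝ) 1, Br.ph (Φ t) y ≠ 0 := fun t ht => (h.Φpos t ht _).ne'

theorem phz : CT fun t => phz (Φ t) y := (h.hΦ.deriv _).cont _

theorem sq0 : CT fun t => sq0 (g t) (Φ t) y :=
  ((h.ph y).pow 2).mul (ct_sum fun i => ct_sum fun j =>
    (((h.inv i j).cont _).mul continuousOn_const).mul continuousOn_const)

theorem sq0_pos : ∀ t ∈ Icc (0 : ℝ) 1, 0 < 1 + Br.sq0 (g t) (Φ t) y := fun t ht =>
  add_pos_of_pos_of_nonneg one_pos (sq0_nonneg' (h.pos t ht _))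

theorem gm0 : CT fun t => gm0 (g t) (Φ t) y := (continuousOn_const.add (h.sq0 y)).sqrt

theorem gm0_ne : ∀ t ∈ Icc (0 : ℝ) 1, Br.gm0 (g t) (Φ t) y ≠ 0 := fun t ht =>
  (Real.sqrt_pos.2 (h.sq0_pos y t ht)).ne'

theorem pp0 : CT fun t => pp0 (g t) (Φ t) y :=
  (h.sq0 y).div (continuousOn_const.add (h.sq0 y)) fun t ht => (h.sq0_pos y t ht).ne'

theorem w0 (i : Fin n) : CT fun t => w0 (g t) (Φ t) y i :=
  ((h.ph y).div (h.gm0 y) (h.gm0_ne y)).mul
    (ct_sum fun j => ((h.inv i j).cont _).mul continuousOn_const)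

theorem gb0 (i j : Fin n) : CT fun t => gb0 (g t) (Φ t) y i j :=
  ((h.hg i j).cont _).add ((((h.ph y).pow 2).mul continuousOn_const).mul continuousOn_const)

theorem gb0_ne : ∀ t ∈ Icc (0 : ℝ) 1, (Br.gb0 (g t) (Φ t) y).det ≠ 0 := fun t ht =>
  (gb0_posDef' (h.pos t ht _)).det_pos.ne'

theorem gbi (i j : Fin n) : CT fun t => gbi (g t) (Φ t) y i j :=
  ct_minv (h.gb0 y) (h.gb0_ne y) i j

theorem Gp (i j : Fin n) : CT fun t => Gp (g t) y i j :=
  ct_sum fun k => ((h.chr k i j).cont _).mul continuousOn_const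

theorem Pi0 (i j : Fin n) : CT fun t => Pi0 (g t) (Φ t) y i j :=
  ((h.pp0 y).mul ((h.inv i j).cont _)).sub ((h.w0 y i).mul (h.w0 y j))

theorem hh1 (i j : Fin n) : CT fun t => hh1 (g t) (Φ t) Y i j :=
  ((((h.ph _).mul (continuousOn_const.sub (h.Gp _ i j))).add
    ((h.hΦ.tot Y i).mul continuousOn_const)).add ((h.hΦ.tot Y j).mul continuousOn_const)).div
    (h.gm0 _) (h.gm0_ne _)

theorem aa1 : CT fun t => aa1 (g t) (Φ t) Y :=
  (ct_sum fun j => (h.w0 _ j).mul (h.hΦ.tot Y j)).div (h.ph _) (h.ph_ne _)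

theorem H01 : CT fun t => H01 (g t) (Φ t) Y :=
  ct_sum fun i => ct_sum fun j => (h.gbi _ i j).mul (h.hh1 Y i j)

theorem rest (i j : Fin n) : CT fun t => rest (Φ t) Y i j :=
  ((((h.hΦ.deriv _).tot Y i).add (((h.hΦ.deriv _).tot Y i).mul continuousOn_const)).add
    (((h.hΦ.deriv _).cont _).mul continuousOn_const)).add
    (((h.hΦ.deriv _).tot Y i).mul continuousOn_const)

theorem hx1 (i j : Fin n) : CT fun t => hx1 (g t) (Φ t) Y i j :=
  (h.hh1 Y i j).add ((h.aa1 Y).mul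
    ((((h.ph _).pow 2).mul continuousOn_const).mul continuousOn_const))

theorem eSq0 (EE : VectorField n) : CT fun t => eSq0 (g t) (Φ t) EE y :=
  (ct_sum fun i => ct_sum fun j =>
    ((h.gb0 y i j).mul continuousOn_const).mul continuousOn_const).div
    (ct_det (h.gb0 y)) (h.gb0_ne y)

end GC

theorem sysCont_of {b : ℝ → Bg n} (h : GC (fun t => (b t).g) fun t => (b t).Φ)
    (hK : ∀ x i j, CT fun t => (b t).K x i j) (hτ : CT fun t => (b t).τ)
    (hG : ∀ y, CT fun t => (b t).Gs y) : An.SysCont fun t => (b t).sys where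
  a1 y k l := h.gbi y k l
  b1 y k := ((h.phz y).div (h.ph y) (h.ph_ne y)).neg.mul
    (ct_sum fun j => ((h.gbi y k j).add (h.gbi y j k)).mul continuousOn_const)
  c1 y := ((ct_sum fun i => ct_sum fun j => (h.gbi y i j).mul (h.Gp y i j)).add
    (((h.gm0 y).div (h.ph y) (h.ph_ne y)).mul ((hτ.mul continuousOn_const).add
      (ct_sum fun i => ct_sum fun j => (h.gbi y i j).mul (hK _ i j))))).sub
    ((ct_sum fun i => ct_sum fun j => (h.gbi y i j).mul
      (((h.hΦ.tot0 y i).mul continuousOn_const).add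
        ((h.hΦ.tot0 y j).mul continuousOn_const))).div (h.ph y) (h.ph_ne y))
  a2 y k l := (continuousOn_const.mul (h.gbi y k l)).add
    ((continuousOn_const.mul ((h.phz y).div (h.ph y) (h.ph_ne y))).mul (h.Pi0 y k l))
  F2 Y := by
    refine ContinuousOn.add (.sub (.add (.sub (.sub (.add (.sub (.add (.sub ?_ ?_) ?_) ?_) ?_) ?_)
      ?_) ?_) ?_) (hG _)
    · exact continuousOn_const.mul (ct_sum fun i => ct_sum fun j => (h.gbi _ i j).mul
        (ct_sum fun k => ((h.chr k i j).cont _).mul continuousOn_const))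
    · exact (continuousOn_const.mul (h.pp0 _)).mul ((ct_sum fun i => ct_sum fun j =>
        ((h.gbi _ i j).mul (h.hΦ.tot Y i)).mul continuousOn_const).div (h.ph _) (h.ph_ne _))
    · exact (continuousOn_const.mul (h.H01 Y)).mul
        (ct_sum fun j => (h.w0 _ j).mul continuousOn_const)
    · exact continuousOn_const.mul (ct_sum fun i => ct_sum fun j =>
        ((h.gbi _ i j).mul continuousOn_const).mul continuousOn_const)
    · exact h.scal.cont _
    · exact continuousOn_const.mul (ct_sum fun i => ct_sum fun j =>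
        (((h.ric i j).cont _).mul (h.w0 _ i)).mul (h.w0 _ j))
    · exact continuousOn_const.mul ((ct_sum fun i => ct_sum fun j => (h.Pi0 _ i j).mul
        ((h.rest Y i j).sub (ct_sum fun k => ((h.chr k i j).cont _).mul (h.hΦ.tot Y k)))).div
        (h.ph _) (h.ph_ne _))
    · exact ((h.H01 Y).add ((h.pp0 _).mul (h.aa1 Y))).pow 2
    · exact ct_sum fun i => ct_sum fun j => ct_sum fun k => ct_sum fun l =>
        (((h.gbi _ i k).mul (h.gbi _ j l)).mul (h.hx1 Y i j)).mul (h.hx1 Y k l)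

theorem cut_mem' (a b t : ℝ) : P1.cut a b t ∈ Icc (0 : ℝ) 1 :=
  ⟨Real.smoothTransition.nonneg _, Real.smoothTransition.le_one _⟩

theorem contDiff_cut' (a b : ℝ) : ContDiff ℝ ∞ (P1.cut a b) :=
  Real.smoothTransition.contDiff.comp ((contDiff_id.sub contDiff_const).div_const _)

theorem gt_posDef' {c : P1.Coef n} {t : ℝ} (ht : t ∈ Icc (0 : ℝ) 1) {x : E n}
    (h : (c.g x).PosDef) : (c.gt t x).PosDef := by
  rcases ht.1.eq_or_lt with h0 | h0
  · simpa [P1.Coef.gt, ← h0] using Matrix.PosDef.one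
  · exact Matrix.PosDef.posSemidef_add (Matrix.PosSemidef.one.smul (sub_nonneg.2 ht.2)) (h.smul h0)

theorem phiF_pos' {P : P1.Par} (he : 0 < P.e) (he1 : P.e < 1) {t a1 a2 : ℝ}
    (ht : t ∈ Icc (0 : ℝ) 1) (h1 : a1 ∈ Icc (0 : ℝ) 1) (h2 : a2 ∈ Icc (0 : ℝ) 1) (f z : ℝ) :
    0 < P.phiF t a1 a2 f z := by
  have hδ : 0 < P.δ := pow_pos he 2
  have hδ1 : P.δ ≤ 1 := pow_le_one₀ he.le he1.le
  have hc := cut_mem' (-P.t1) (-P.t1 / 2) (P.τ * f)
  have hχ : 0 ≤ P.chi a1 a2 (P.τ * f) :=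
    mul_nonneg h1.1 (sub_nonneg.2 (mul_le_one₀ h2.2 (sub_nonneg.2 hc.2) (by linarith [hc.1])))
  have h3 : 0 ≤ (1 - P.δ) * P.chi a1 a2 (P.τ * f) * P.Ph z :=
    mul_nonneg (mul_nonneg (sub_nonneg.2 hδ1) hχ) (cut_mem' _ _ _).1
  have h4 := mul_nonneg ht.1 h3
  have h5 := mul_le_mul_of_nonneg_right ht.2 (sub_nonneg.2 hδ1)
  unfold P1.Par.phiF
  linarith

theorem gc_bgOf {P : P1.Par} (he : 0 < P.e) (he1 : P.e < 1) {lam : ℝ} {B : ℕ → ℝ}
    {c : P1.Coef n} (hc : c.Unif lam B) : GC c.gt (bgΦ P c) where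
  hg i j t _ x := by
    have h1 : ContDiff ℝ ∞ fun x => c.g x i j := (hc.bdd _ (Or.inl ⟨i, j, rfl⟩)).1
    simp only [P1.Coef.gt, Matrix.add_apply, Matrix.smul_apply, smul_eq_mul]
    exact (((contDiff_const.sub contDiff_fst).mul contDiff_const).add
      (contDiff_fst.mul (h1.comp contDiff_snd))).contDiffAt
  pos t ht x := gt_posDef' ht (hc.riem.posDef x trivial)
  hΦ t _ q := by
    have h1 : ContDiff ℝ ∞ c.a1 := (hc.bdd _ (by simp [P1.Coef.comps])).1
    have h2 : ContDiff ℝ ∞ c.a2 := (hc.bdd _ (by simp [P1.Coef.comps])).1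
    have h3 := contDiff_cut' (-P.t1) (-P.t1 / 2)
    have h4 := contDiff_cut' (-P.θ / 2) (-P.θ / 4)
    refine ContDiff.contDiffAt ?_
    simp only [bgΦ, P1.Par.phiF, P1.Par.chi, P1.Par.Ph]
    fun_prop
  Φpos t ht q := phiF_pos' he he1 ht (hc.a1_mem _) (hc.a2_mem _) _ _

theorem cont : ContStmt := by
  intro n P _ he he1 lam B c hc
  have h := gc_bgOf he he1 hc
  refine sysCont_of (b := bgOf P c) h (fun x i j => ?_) continuousOn_const fun y => ?_
  · exact continuousOn_id.mul continuousOn_const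
  · have h1 := h.pp0 y
    have h2 := h.eSq0 y c.EE
    simp only [bgOf]
    exact ((continuousOn_id.mul ((((((continuousOn_const.add (continuousOn_const.mul h1)).add
      continuousOn_const).add (continuousOn_const.mul h2)).neg.sub continuousOn_const).add
      continuousOn_const).add continuousOn_const)).add
      ((continuousOn_const.sub continuousOn_id).mul continuousOn_const)).add continuousOn_const

end Crest.Agent.N346.Br

end
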